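import Vale.Agent.P022.H867.Twist
import Vale.Agent.P022.H374.N5

/-! # Artin reciprocity over fields of degree at most two -/

namespace Vale.Agent.P022.H867

open NumberField Pointwise UniqueFactorizationMonoid
open Vale.Agent.P022.CFT (evI IsRC Nrm)

noncomputable section

section sys

variable {K : Type} [Field K] [NumberField K]

theorem unram_finite (L : IntermediateField K (Kb K)) (_ : FiniteDimensional K L)
    (_ : IsGalois K L) : {𝔭 : Ideal (𝓞 K) | 𝔭.IsPrime ∧ 𝔭 ≠ ⊥ ∧ ¬ Unram K L 𝔭}.Finite := by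
  obtain ⟨D, hD, h⟩ := H374.exists_unram K L
  refine ((res_fin (K := K) D hD).image (fun p : PK K => p.1)).subset ?_
  rintro 𝔭 ⟨h1, h2, h3⟩
  refine ⟨⟨𝔭, h1, h2⟩, ?_, rfl⟩
  show res K ⟨𝔭, h1, h2⟩ ∣ D
  rw [res_dvd]
  by_contra h4
  exact h3 (h 𝔭 h1 h4)

/-- The formal data of the number field `K`. -/
def recSys (hFI : CFT.FI_statement) (hS : H191.Second_statement) (hBa : H191.Bauer_statement)
    (h2 : Module.finrank ℚ K ≤ 2) : RecSys (PK K) (Chars K) where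
  res := res K
  res_prime := res_prime
  res_fin := res_fin
  ev := evK K
  ram χ := ramK χ.1
  ram_fin χ := by
    obtain ⟨M, hM, -, h, -⟩ := first hFI χ ∅ (by simp)
    exact (Set.finite_Iic M).subset fun l hl => Nat.le_of_dvd hM (h l hl)
  ram_prime χ l hl := hl.1
  ram_one := ram_one
  ram_mul χ φ := ram_mul χ.1 φ.1
  ram_inv χ := ram_inv χ.1
  RC := RCK K
  RC_mono _ h := RC_mono h
  RC_congr := RC_congr
  RC_sep M _ f hf h p hp := by
    have h1 : {𝔭 : Ideal (𝓞 K) | 𝔭.IsPrime ∧ 𝔭 ≠ ⊥ ∧ ext f 𝔭 ≠ 1}.Finite := by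
      rw [Filter.eventually_cofinite] at h
      refine (h.image (fun p : PK K => p.1)).subset ?_
      rintro 𝔭 ⟨h1, h2, h3⟩
      refine ⟨⟨𝔭, h1, h2⟩, ?_, rfl⟩
      show ¬ f ⟨𝔭, h1, h2⟩ = 1
      rw [← ext_apply f ⟨𝔭, h1, h2⟩]
      exact h3
    have := H374.N3 (mem_RCK.1 hf) h1 p.2.1 p.2.2 (fun h => hp ((res_dvd p M).2 h))
    rwa [ext_apply] at this
  first ψ _ T hT := first hFI ψ T hT
  second B hB s h3 h4 h5 := second hS h2 B hB s h3 h4 h5
  split ψ φ _ _ h := split hBa unram_finite ψ φ h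
  twist r e hr T p := twist h2 r e hr T p

end sys

section final

variable {K L : Type} [Field K] [NumberField K] [Field L] [NumberField L] [Algebra K L]
  [Algebra L (Kb K)] [IsScalarTower K L (Kb K)] [IsGalois K L]

/-- Restriction to `L`. -/
abbrev rst (K L : Type) [Field K] [NumberField K] [Field L] [NumberField L] [Algebra K L]
    [Algebra L (Kb K)] [IsScalarTower K L (Kb K)] [IsGalois K L] : GK K →* (L ≃ₐ[K] L) :=
  AlgEquiv.restrictNormalHom L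

theorem rst_apply (g : GK K) (x : L) :
    algebraMap L (Kb K) (rst K L g x) = g (algebraMap L (Kb K) x) :=
  AlgEquiv.restrictNormal_commutes g L x

theorem rst_int (g : GK K) {x y : 𝓞 L} (hy : (y : L) = rst K L g x) :
    algebraMap (𝓞 L) (𝓞 (Kb K)) y = g • (algebraMap (𝓞 L) (𝓞 (Kb K)) x) := by
  apply RingOfIntegers.ext
  rw [coe_smul]
  show algebraMap L (Kb K) (y : L) = g (algebraMap L (Kb K) (x : L))
  rw [hy, rst_apply]

theorem comap_comap' (Q : Ideal (𝓞 (Kb K))) :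
    (Q.comap (algebraMap (𝓞 L) (𝓞 (Kb K)))).comap (algebraMap (𝓞 K) (𝓞 L)) =
      Q.comap (algebraMap (𝓞 K) (𝓞 (Kb K))) := by
  rw [Ideal.comap_comap]
  congr 1
  ext x
  show algebraMap L (Kb K) (algebraMap K L (x : K)) = algebraMap K (Kb K) (x : K)
  rw [← IsScalarTower.algebraMap_apply]

theorem isFrob_rst (p : PK K) : IsFrob K L p.1 (rst K L (frob p)) := by
  have := pab_prime p
  refine ⟨(pab p).comap (algebraMap (𝓞 L) (𝓞 (Kb K))), Ideal.comap_isPrime _ _, ?_, ?_⟩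
  · rw [comap_comap', pab_comap]
  · intro x y hy
    rw [Ideal.mem_comap, map_sub, map_pow, rst_int _ hy]
    exact frob_spec p _

theorem not_unram_rst {Q : Ideal (𝓞 (Kb K))} (hQ : Q.IsPrime) {g : GK K}
    (hg : ∀ x : 𝓞 (Kb K), g • x - x ∈ Q) (h : rst K L g ≠ 1) :
    ¬ Unram K L (Q.comap (algebraMap (𝓞 K) (𝓞 (Kb K)))) := by
  intro hU
  apply h
  apply hU (Q.comap (algebraMap (𝓞 L) (𝓞 (Kb K)))) (Ideal.comap_isPrime _ _) (comap_comap' Q)
  intro x y hy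
  rw [Ideal.mem_comap, map_sub, rst_int _ hy]
  exact hg _

/-- The inflation of a character of the Galois group of `L`. -/
def infl (θ : (L ≃ₐ[K] L) →* ℂˣ) : Chars K :=
  ⟨θ.comp (rst K L), by
    let ι : L →ₐ[K] Kb K := IsScalarTower.toAlgHom K L (Kb K)
    have hF : FiniteDimensional K ι.fieldRange := by
      have : FiniteDimensional K L := Module.Finite.of_restrictScalars_finite ℚ K L
      exact LinearMap.finiteDimensional_range ι.toLinearMap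
    have hle : ι.fieldRange.fixingSubgroup ≤ (θ.comp (rst K L)).ker := by
      intro g hg
      have h1 : rst K L g = 1 := by
        ext x
        apply (algebraMap L (Kb K)).injective
        rw [rst_apply]
        exact (IntermediateField.mem_fixingSubgroup_iff _ g).1 hg _ ⟨x, rfl⟩
      rw [MonoidHom.mem_ker, MonoidHom.comp_apply, h1, map_one]
    exact Subgroup.isOpen_mono hle (IntermediateField.fixingSubgroup_isOpen _)⟩

theorem evK_infl (hab : ∀ σ τ : L ≃ₐ[K] L, σ * τ = τ * σ) (θ : (L ≃ₐ[K] L) →* ℂˣ) (p : PK K)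
    (hU : Unram K L p.1) {σ : L ≃ₐ[K] L} (hσ : IsFrob K L p.1 σ) :
    evK K (infl θ) p = θ σ := by
  rw [H374.isFrob_unique hab hU hσ (isFrob_rst p)]
  rfl

theorem ramK_infl (θ : (L ≃ₐ[K] L) →* ℂˣ) {l : ℕ} (hl : l ∈ ramK (infl θ).1) :
    l.Prime ∧ ∃ 𝔭 : Ideal (𝓞 K), 𝔭.IsPrime ∧ (l : 𝓞 K) ∈ 𝔭 ∧ ¬ Unram K L 𝔭 := by
  obtain ⟨hl, Q, hQ, hlQ, g, hg, hne⟩ := hl
  refine ⟨hl, _, Ideal.comap_isPrime _ Q, ?_, not_unram_rst (L := L) hQ hg ?_⟩
  · rw [Ideal.mem_comap, map_natCast]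
    exact hlQ
  · intro h
    apply hne
    show θ (rst K L g) = 1
    rw [h, map_one]

/-- Characters separate the points of a finite commutative group. -/
theorem eq_one_of_forall {G : Type} [CommGroup G] [Finite G] {g : G}
    (h : ∀ θ : G →* ℂˣ, θ g = 1) : g = 1 := by
  by_contra hne
  obtain ⟨θ, hθ⟩ := CommGroup.exists_apply_ne_one_of_hasEnoughRootsOfUnity G ℂ hne
  exact hθ (h θ)

end final

section main

theorem evI_hom {K : Type} [Field K] [NumberField K] {G A : Type*} [CommGroup G] [CommGroup A]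
    (θ : G →* A) (Y : Ideal (𝓞 K) → G) (I : Ideal (𝓞 K)) :
    θ (evI Y I) = evI (fun 𝔭 => θ (Y 𝔭)) I := by
  unfold evI
  rw [map_multiset_prod, Multiset.map_map]
  rfl

/-- The commutative group structure of an abelian Galois group. -/
abbrev gcomm {K L : Type} [Field K] [Field L] [Algebra K L]
    (hab : ∀ σ τ : L ≃ₐ[K] L, σ * τ = τ * σ) : CommGroup (L ≃ₐ[K] L) :=
  { (AlgEquiv.aut : Group (L ≃ₐ[K] L)) with mul_comm := hab }

theorem finite_dual {G : Type} (gc : CommGroup G) (_ : Finite G) : Finite (G →* ℂˣ) :=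
  Nat.finite_of_card_ne_zero (by
    rw [card_hom]
    exact Nat.card_pos.ne')

/-- Reciprocity with moduli prime to a given finite set of unramified primes. -/
theorem recip_T (hFI : CFT.FI_statement) (hS : H191.Second_statement)
    (hBa : H191.Bauer_statement) (K L : Type) [Field K] [NumberField K] [Field L] [NumberField L]
    [Algebra K L] [IsGalois K L] (hab : ∀ σ τ : L ≃ₐ[K] L, σ * τ = τ * σ)
    (h2 : Module.finrank ℚ K ≤ 2) (R : ℕ) (hR : 0 < R)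
    (hR' : ∀ l : ℕ, l.Prime → (l ∣ R ↔ ∃ 𝔭 : Ideal (𝓞 K), 𝔭.IsPrime ∧ (l : 𝓞 K) ∈ 𝔭 ∧
      ¬ Unram K L 𝔭))
    (F : Ideal (𝓞 K) → (L ≃ₐ[K] L))
    (hF : ∀ 𝔭 : Ideal (𝓞 K), 𝔭.IsPrime → 𝔭 ≠ ⊥ → Unram K L 𝔭 → IsFrob K L 𝔭 (F 𝔭))
    (T : Finset ℕ) (hT : ∀ l ∈ T, l.Prime ∧ ¬ l ∣ R) :
    ∃ M : ℕ, 0 < M ∧ (∀ l ∈ T, ¬ l ∣ M) ∧ @IsRC K _ _ (L ≃ₐ[K] L) (gcomm hab) M F := by
  classical
  let ι : L →ₐ[K] Kb K := IsAlgClosed.lift
  let _ : Algebra L (Kb K) := ι.toRingHom.toAlgebra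
  have _ : IsScalarTower K L (Kb K) := IsScalarTower.of_algebraMap_eq fun x => (ι.commutes x).symm
  have hfin : Finite (L ≃ₐ[K] L) := inferInstance
  have hfinX : Finite ((L ≃ₐ[K] L) →* ℂˣ) := finite_dual (gcomm hab) hfin
  have hfx : Fintype ((L ≃ₐ[K] L) →* ℂˣ) := Fintype.ofFinite _
  have hrec : ∀ θ : (L ≃ₐ[K] L) →* ℂˣ, ∃ M : ℕ, 0 < M ∧ (∀ l ∈ T, ¬ l ∣ M) ∧
      evK K (infl θ) ∈ RCK K M := by
    intro θ
    exact RecSys.recip (S := recSys hFI hS hBa h2) (isOfFinOrder (infl θ)) T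
      (fun l hl => ⟨(hT l hl).1, fun h => (hT l hl).2 ((hR' l (hT l hl).1).2 (ramK_infl θ h).2)⟩)
  choose M hM hMT hMr using hrec
  set N : ℕ := R * ∏ θ, M θ with hN
  have hN0 : 0 < N := Nat.mul_pos hR (Finset.prod_pos fun θ _ => hM θ)
  refine ⟨N, hN0, ?_, ?_⟩
  · intro l hl h
    have hlp := (hT l hl).1
    rcases (Nat.Prime.dvd_mul hlp).1 h with h | h
    · exact (hT l hl).2 h
    · obtain ⟨θ, -, hθ⟩ := (hlp.prime.dvd_finsetProd_iff _).1 h
      exact hMT θ l hl hθ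
  · intro α h0 h1 h3
    apply @eq_one_of_forall _ (gcomm hab) hfin
    intro θ
    rw [@evI_hom K _ _ (L ≃ₐ[K] L) ℂˣ (gcomm hab) _ θ F (Ideal.span {α})]
    have h4 : evK K (infl θ) ∈ RCK K N :=
      RC_mono (Dvd.dvd.mul_left (Finset.dvd_prod_of_mem _ (Finset.mem_univ θ)) _) (hMr θ)
    rw [← h4 α h0 h1 h3]
    apply evI_congr
    intro 𝔭 h5 h6 h7
    have h8 := ext_apply (evK K (infl θ)) ⟨𝔭, h5, h6⟩
    have hu : Unram K L 𝔭 := by
      by_contra hu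
      apply not_mem_of_sub_one_mem h1 h5 h7
      have h9 : res K ⟨𝔭, h5, h6⟩ ∣ R := (hR' _ (res_prime _)).2
        ⟨𝔭, h5, (res_dvd ⟨𝔭, h5, h6⟩ _).1 dvd_rfl, hu⟩
      exact (res_dvd ⟨𝔭, h5, h6⟩ N).1 (h9.mul_right _)
    rw [h8, evK_infl hab θ ⟨𝔭, h5, h6⟩ hu (hF 𝔭 h5 h6 hu)]

/-- **Artin reciprocity** for abelian extensions of fields of degree at most two, from the first
inequality, the second inequality, Bauer's theorem and the removal of auxiliary primes. -/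
theorem AR (hFI : CFT.FI_statement) (hS : H191.Second_statement) (hBa : H191.Bauer_statement)
    (hREM : CFT.REM_statement) : AR_statement := by
  classical
  intro K L _ _ _ _ _ hGal hab h2
  have hN5 := H374.N5 K L
  set R : ℕ := ∏ l ∈ hN5.toFinset, l with hR
  have hR0 : 0 < R := Finset.prod_pos fun l hl => (hN5.mem_toFinset.1 hl).1.pos
  have hR' : ∀ l : ℕ, l.Prime → (l ∣ R ↔ ∃ 𝔭 : Ideal (𝓞 K), 𝔭.IsPrime ∧ (l : 𝓞 K) ∈ 𝔭 ∧
      ¬ Unram K L 𝔭) := by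
    intro l hl
    constructor
    · intro h
      obtain ⟨l', hl', h'⟩ := (hl.prime.dvd_finsetProd_iff _).1 h
      have h3 := hN5.mem_toFinset.1 hl'
      rw [(Nat.prime_dvd_prime_iff_eq hl h3.1).1 h']
      exact h3.2
    · intro h
      exact Finset.dvd_prod_of_mem _ (hN5.mem_toFinset.2 ⟨hl, h⟩)
  have hex : ∀ 𝔭 : Ideal (𝓞 K), ∃ σ : L ≃ₐ[K] L, 𝔭.IsPrime → 𝔭 ≠ ⊥ → IsFrob K L 𝔭 σ := by
    intro 𝔭
    by_cases h : 𝔭.IsPrime ∧ 𝔭 ≠ ⊥
    · have := h.1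
      obtain ⟨σ, hσ⟩ := H374.exists_isFrob (L := L) 𝔭 h.2
      exact ⟨σ, fun _ _ => hσ⟩
    · exact ⟨1, fun h1 h2 => absurd ⟨h1, h2⟩ h⟩
  choose F0 hF0 using hex
  obtain ⟨a, ha⟩ := @hREM K _ _ (L ≃ₐ[K] L) (gcomm hab) F0 R hR0 (by
    intro T hT
    exact recip_T hFI hS hBa K L hab h2 R hR0 hR' F0 (fun 𝔭 h3 h4 _ => hF0 𝔭 h3 h4) T hT)
  refine ⟨R ^ (a + 1), pow_pos hR0 _, ?_, ?_⟩
  · intro l hl h
    exact (hR' l hl).1 (hl.dvd_of_dvd_pow h)
  · intro F hF A _ χ α h0 h1 h3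
    have hα : α - 1 ∈ idl K (R ^ a : ℕ) := by
      have hle : idl K (R ^ (a + 1) : ℕ) ≤ idl K (R ^ a : ℕ) := by
        rw [idl, idl, Ideal.span_singleton_le_span_singleton]
        push_cast
        exact pow_dvd_pow _ (Nat.le_succ a)
      exact hle h1
    have h4 := ha α h0 hα h3
    have h5 : evI (fun 𝔭 => χ (F 𝔭)) (Ideal.span {α}) = evI (fun 𝔭 => χ (F0 𝔭)) (Ideal.span {α}) := by
      apply evI_congr
      intro 𝔭 h6 h7 h8
      have hu : Unram K L 𝔭 := by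
        by_contra hu
        apply not_mem_of_sub_one_mem (M := R ^ (a + 1)) h1 h6 h8
        have h9 : res K ⟨𝔭, h6, h7⟩ ∣ R := (hR' _ (res_prime _)).2
          ⟨𝔭, h6, (res_dvd ⟨𝔭, h6, h7⟩ _).1 dvd_rfl, hu⟩
        exact (res_dvd ⟨𝔭, h6, h7⟩ _).1 (h9.trans (dvd_pow_self _ (Nat.succ_ne_zero a)))
      show χ (F 𝔭) = χ (F0 𝔭)
      rw [H374.isFrob_unique hab hu (hF 𝔭 h6 h7 hu) (hF0 𝔭 h6 h7)]
    show evI (fun 𝔭 => χ (F 𝔭)) (Ideal.span {α}) = 1
    rw [h5]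
    have h10 := @evI_hom K _ _ (L ≃ₐ[K] L) A (gcomm hab) _ χ F0 (Ideal.span {α})
    rw [← h10, h4, map_one]

end main

end

end Vale.Agent.P022.H867
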