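import Mathlib

/-! # Frobenius and inertia elements in infinite Galois groups of number fields -/

namespace Vale.Agent.P022.H867

open NumberField Pointwise

section inst

variable (K Ω : Type) [Field K] [NumberField K] [Field Ω] [Algebra K Ω]

theorem coe_smul (g : Ω ≃ₐ[K] Ω) (x : 𝓞 Ω) : ((g • x : 𝓞 Ω) : Ω) = g (x : Ω) := rfl

theorem smulComm : SMulCommClass (Ω ≃ₐ[K] Ω) (𝓞 K) (𝓞 Ω) := by
  constructor
  intro g a x
  apply RingOfIntegers.ext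
  have h1 : ∀ y : 𝓞 Ω, ((a • y : 𝓞 Ω) : Ω) = algebraMap K Ω (a : K) * (y : Ω) := by
    intro y
    rw [Algebra.smul_def]
    rfl
  rw [coe_smul, h1, map_mul, AlgEquiv.commutes, h1, coe_smul]

theorem isInv [IsGalois K Ω] : Algebra.IsInvariant (𝓞 K) (𝓞 Ω) (Ω ≃ₐ[K] Ω) := by
  constructor
  intro b hb
  have h1 : (b : Ω) ∈ Set.range (algebraMap K Ω) := by
    rw [InfiniteGalois.mem_range_algebraMap_iff_fixed]
    intro g
    exact congrArg (fun x : 𝓞 Ω => (x : Ω)) (hb g)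
  obtain ⟨a, ha⟩ := h1
  have hint : IsIntegral ℤ a := by
    have : IsIntegral ℤ (algebraMap K Ω a) := by
      rw [ha]; exact b.2
    exact (isIntegral_algebraMap_iff (algebraMap K Ω).injective).1 this
  exact ⟨⟨a, hint⟩, RingOfIntegers.ext ha⟩

theorem contSMul [IsGalois K Ω] :
    @ContinuousSMul (Ω ≃ₐ[K] Ω) (𝓞 Ω) _ _ ⊥ := by
  let _ : TopologicalSpace (𝓞 Ω) := ⊥
  have : DiscreteTopology (𝓞 Ω) := ⟨rfl⟩
  constructor
  rw [continuous_discrete_rng]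
  intro y
  rw [isOpen_iff_mem_nhds]
  rintro ⟨g, x⟩ h
  have hx : g • x = y := h
  have hopen : IsOpen ((MulAction.stabilizer (Ω ≃ₐ[K] Ω) (x : Ω) : Set (Ω ≃ₐ[K] Ω))) :=
    stabilizer_isOpen_of_isIntegral (x : Ω)
  have hnhd : {h : Ω ≃ₐ[K] Ω | g⁻¹ * h ∈ MulAction.stabilizer (Ω ≃ₐ[K] Ω) (x : Ω)} ∈ nhds g := by
    apply IsOpen.mem_nhds
    · exact hopen.preimage (continuous_const_mul g⁻¹)
    · simp
  have : {h : Ω ≃ₐ[K] Ω | g⁻¹ * h ∈ MulAction.stabilizer (Ω ≃ₐ[K] Ω) (x : Ω)} ×ˢ ({x} : Set (𝓞 Ω)) ∈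
      nhds (g, x) := prod_mem_nhds hnhd (by simp)
  filter_upwards [this]
  rintro ⟨h', x'⟩ ⟨h1, h2⟩
  have h2' : x' = x := h2
  subst h2'
  have h1' : (g⁻¹ * h') • (x' : Ω) = x' := h1
  show h' • x' = y
  rw [← hx]
  apply RingOfIntegers.ext
  rw [coe_smul, coe_smul]
  rw [mul_smul, inv_smul_eq_iff] at h1'
  exact h1'

end inst

section main

variable {K Ω : Type} [Field K] [NumberField K] [Field Ω] [Algebra K Ω] [IsGalois K Ω]

theorem exists_smul_prime (P Q : Ideal (𝓞 Ω)) (hP : P.IsPrime) (hQ : Q.IsPrime)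
    (h : P.comap (algebraMap (𝓞 K) (𝓞 Ω)) = Q.comap (algebraMap (𝓞 K) (𝓞 Ω))) :
    ∃ g : Ω ≃ₐ[K] Ω, ∀ x : 𝓞 Ω, x ∈ P ↔ g • x ∈ Q := by
  let _ : TopologicalSpace (𝓞 Ω) := ⊥
  have : DiscreteTopology (𝓞 Ω) := ⟨rfl⟩
  have := smulComm K Ω
  have := isInv K Ω
  have := contSMul K Ω
  obtain ⟨g, hg⟩ := Algebra.IsInvariant.exists_smul_of_under_eq_of_profinite (A := 𝓞 K)
    (B := 𝓞 Ω) (G := Ω ≃ₐ[K] Ω) P Q h
  refine ⟨g, fun x => ?_⟩
  rw [hg, Ideal.smul_mem_pointwise_smul_iff]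

theorem exists_residue_lift (Q : Ideal (𝓞 Ω)) (hQ : Q.IsPrime)
    (φ : (𝓞 Ω ⧸ Q) ≃+* (𝓞 Ω ⧸ Q))
    (hφ : ∀ a : 𝓞 K, φ (Ideal.Quotient.mk Q (algebraMap (𝓞 K) (𝓞 Ω) a)) =
      Ideal.Quotient.mk Q (algebraMap (𝓞 K) (𝓞 Ω) a)) :
    ∃ g : Ω ≃ₐ[K] Ω, ∀ x : 𝓞 Ω, Ideal.Quotient.mk Q (g • x) = φ (Ideal.Quotient.mk Q x) := by
  let _ : TopologicalSpace (𝓞 Ω) := ⊥
  have : DiscreteTopology (𝓞 Ω) := ⟨rfl⟩
  have := smulComm K Ω
  have := isInv K Ω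
  have := contSMul K Ω
  let P : Ideal (𝓞 K) := Q.under (𝓞 K)
  let φ' : (𝓞 Ω ⧸ Q) ≃ₐ[𝓞 K ⧸ P] (𝓞 Ω ⧸ Q) :=
    { φ with
      commutes' := by
        intro r
        obtain ⟨a, rfl⟩ := Ideal.Quotient.mk_surjective r
        exact hφ a }
  obtain ⟨g, hg⟩ := Ideal.Quotient.stabilizerHom_surjective_of_profinite (A := 𝓞 K)
    (B := 𝓞 Ω) (G := Ω ≃ₐ[K] Ω) P Q φ'
  refine ⟨g.1, fun x => ?_⟩
  exact DFunLike.congr_fun hg (Ideal.Quotient.mk Q x)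

theorem iter_bijective {R : Type} [CommRing R] [IsDomain R] (p n : ℕ) [hp : Fact p.Prime]
    [CharP R p] (hint : ∀ x : R, IsIntegral ℤ x) : Function.Bijective (iterateFrobenius R p n) := by
  have hinj : Function.Injective (iterateFrobenius R p n) := iterateFrobenius_inj R p n
  refine ⟨hinj, fun x => ?_⟩
  let S := Algebra.adjoin ℤ ({x} : Set R)
  have hfg : Module.Finite ℤ S := Module.Finite.iff_fg.2 (hint x).fg_adjoin_singleton
  have hfin : Finite S := by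
    apply Module.finite_of_fg_torsion
    intro y
    refine ⟨⟨(p : ℤ), mem_nonZeroDivisors_of_ne_zero (by exact_mod_cast hp.out.ne_zero)⟩, ?_⟩
    apply Subtype.ext
    show (p : ℤ) • (y : R) = 0
    rw [zsmul_eq_mul]
    push_cast
    rw [CharP.cast_eq_zero, zero_mul]
  let f : S → S := fun y => y ^ p ^ n
  have hf : Function.Injective f := by
    intro a b hab
    apply Subtype.ext
    apply hinj
    have := congrArg (fun z : S => (z : R)) hab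
    simpa [f, iterateFrobenius_def] using this
  obtain ⟨y, hy⟩ := (Finite.injective_iff_surjective.1 hf) ⟨x, Algebra.subset_adjoin rfl⟩
  refine ⟨y, ?_⟩
  have := congrArg (fun z : S => (z : R)) hy
  simpa [f, iterateFrobenius_def] using this

/-- Frobenius elements exist. -/
theorem exists_frob (Q : Ideal (𝓞 Ω)) (hQ : Q.IsPrime) (𝔭 : Ideal (𝓞 K)) (h0 : 𝔭 ≠ ⊥)
    (h : Q.comap (algebraMap (𝓞 K) (𝓞 Ω)) = 𝔭) :
    ∃ g : Ω ≃ₐ[K] Ω, ∀ x : 𝓞 Ω, g • x - x ^ (Ideal.absNorm 𝔭) ∈ Q := by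
  have hp1 : 𝔭.IsPrime := by rw [← h]; infer_instance
  have hmax : 𝔭.IsMaximal := hp1.isMaximal h0
  let _ : Field (𝓞 K ⧸ 𝔭) := Ideal.Quotient.field 𝔭
  have hfin : Finite (𝓞 K ⧸ 𝔭) := Ideal.finiteQuotientOfFreeOfNeBot 𝔭 h0
  have hft : Fintype (𝓞 K ⧸ 𝔭) := Fintype.ofFinite _
  obtain ⟨p, hc⟩ := CharP.exists (𝓞 K ⧸ 𝔭)
  obtain ⟨n, hp, hn⟩ := FiniteField.card (𝓞 K ⧸ 𝔭) p
  have hpf : Fact p.Prime := ⟨hp⟩
  have habs : Ideal.absNorm 𝔭 = p ^ (n : ℕ) := by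
    rw [Ideal.absNorm_apply, Submodule.cardQuot_apply, Nat.card_eq_fintype_card, hn]
  have hpQ : ((p : ℕ) : 𝓞 Ω) ∈ Q := by
    have h1 : ((p : ℕ) : 𝓞 K) ∈ 𝔭 := by
      rw [← Ideal.Quotient.eq_zero_iff_mem, map_natCast, CharP.cast_eq_zero]
    rw [← h, Ideal.mem_comap, map_natCast] at h1
    exact h1
  have hchar : CharP (𝓞 Ω ⧸ Q) p := by
    have h1 : ((p : ℕ) : 𝓞 Ω ⧸ Q) = 0 := by
      rw [← map_natCast (Ideal.Quotient.mk Q), Ideal.Quotient.eq_zero_iff_mem]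
      exact hpQ
    have h2 : ringChar (𝓞 Ω ⧸ Q) = p := by
      have h3 := ringChar.dvd h1
      rcases (Nat.dvd_prime hp).1 h3 with h4 | h4
      · exfalso
        have h5 := ringChar.spec (𝓞 Ω ⧸ Q) 1
        rw [h4] at h5
        simp at h5
      · exact h4
    exact ringChar.of_eq h2
  have hint : ∀ x : 𝓞 Ω ⧸ Q, IsIntegral ℤ x := by
    intro x
    obtain ⟨y, rfl⟩ := Ideal.Quotient.mk_surjective x
    have : IsIntegral ℤ y := RingOfIntegers.isIntegral y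
    exact this.map (Ideal.Quotient.mkₐ ℤ Q)
  have hbij := iter_bijective (R := 𝓞 Ω ⧸ Q) p n hint
  obtain ⟨g, hg⟩ := exists_residue_lift (K := K) Q hQ (RingEquiv.ofBijective _ hbij) (by
    intro a
    rw [RingEquiv.ofBijective_apply, iterateFrobenius_def, ← map_pow, ← map_pow,
      Ideal.Quotient.eq, ← map_sub, ← Ideal.mem_comap, h, ← Ideal.Quotient.eq, map_pow, ← hn]
    exact FiniteField.pow_card _)
  refine ⟨g, fun x => ?_⟩
  rw [← Ideal.Quotient.eq, hg, RingEquiv.ofBijective_apply, iterateFrobenius_def, map_pow, habs]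

end main

section lift

variable {K L Ω : Type} [Field K] [NumberField K] [Field L] [NumberField L] [Field Ω]
  [Algebra K L] [Algebra K Ω] [Algebra L Ω] [IsScalarTower K L Ω] [IsGalois K L] [IsGalois K Ω]
  [IsGalois L Ω]

/-- Inertia elements lift to inertia elements. -/
theorem inertia_lift (P : Ideal (𝓞 L)) (hP : P.IsPrime) (σ : L ≃ₐ[K] L)
    (hσ : ∀ x : 𝓞 L, σ • x - x ∈ P) :
    ∃ Q : Ideal (𝓞 Ω), Q.IsPrime ∧ Q.comap (algebraMap (𝓞 L) (𝓞 Ω)) = P ∧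
      ∃ g : Ω ≃ₐ[K] Ω, (∀ x : 𝓞 Ω, g • x - x ∈ Q) ∧
        ∀ y : L, g (algebraMap L Ω y) = algebraMap L Ω (σ y) := by
  have hint : Algebra.IsIntegral (𝓞 L) (𝓞 Ω) := by
    constructor
    intro x
    exact (RingOfIntegers.isIntegral x).tower_top
  have hinj : Function.Injective (algebraMap (𝓞 L) (𝓞 Ω)) := by
    intro a b hab
    apply RingOfIntegers.ext
    apply (algebraMap L Ω).injective
    exact congrArg (fun x : 𝓞 Ω => (x : Ω)) hab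
  obtain ⟨Q, hQ, hQP⟩ : ∃ Q : Ideal (𝓞 Ω), Q.IsPrime ∧
      Q.comap (algebraMap (𝓞 L) (𝓞 Ω)) = P := by
    obtain ⟨Q, -, hQ, hQP⟩ := Ideal.exists_ideal_over_prime_of_isIntegral (R := 𝓞 L) (S := 𝓞 Ω)
      P ⊥ (by rw [Ideal.comap_bot_of_injective _ hinj]; exact bot_le)
    exact ⟨Q, hQ, hQP⟩
  refine ⟨Q, hQ, hQP, ?_⟩
  set σ1 : Ω ≃ₐ[K] Ω := σ.liftNormal Ω with hσ1
  have h1 : ∀ y : L, σ1 (algebraMap L Ω y) = algebraMap L Ω (σ y) := σ.liftNormal_commutes Ω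
  have h1' : ∀ y : 𝓞 L, σ1 • (algebraMap (𝓞 L) (𝓞 Ω) y) = algebraMap (𝓞 L) (𝓞 Ω) (σ • y) := by
    intro y
    apply RingOfIntegers.ext
    exact h1 y
  have h1'' : ∀ y : 𝓞 L, σ1⁻¹ • (algebraMap (𝓞 L) (𝓞 Ω) y) =
      algebraMap (𝓞 L) (𝓞 Ω) (σ⁻¹ • y) := by
    intro y
    rw [inv_smul_eq_iff, h1', smul_inv_smul]
  let Q' : Ideal (𝓞 Ω) := Q.comap (MulSemiringAction.toRingHom (Ω ≃ₐ[K] Ω) (𝓞 Ω) σ1⁻¹)
  have hQ' : ∀ x : 𝓞 Ω, x ∈ Q' ↔ σ1⁻¹ • x ∈ Q := fun x => Iff.rfl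
  have hQ'p : Q'.IsPrime := Ideal.comap_isPrime _ _
  have hc : Q'.comap (algebraMap (𝓞 L) (𝓞 Ω)) = Q.comap (algebraMap (𝓞 L) (𝓞 Ω)) := by
    ext a
    rw [Ideal.mem_comap, hQ', h1'', ← Ideal.mem_comap, hQP]
    have := hσ (σ⁻¹ • a)
    rw [smul_inv_smul] at this
    constructor
    · intro h
      have := P.add_mem this h
      simpa using this
    · intro h
      have := P.sub_mem h this
      simpa using this
  obtain ⟨τ, hτ⟩ := exists_smul_prime (K := L) Q' Q hQ'p hQ hc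
  -- the element of the decomposition group
  set σ2 : Ω ≃ₐ[K] Ω := (τ.restrictScalars K) * σ1 with hσ2
  have hτs : ∀ x : 𝓞 Ω, (τ.restrictScalars K) • x = τ • x := fun x => rfl
  have h2 : ∀ x : 𝓞 Ω, x ∈ Q ↔ σ2 • x ∈ Q := by
    intro x
    rw [hσ2, mul_smul, hτs, ← hτ, hQ', inv_smul_smul]
  have h2L : ∀ a : 𝓞 L, σ2 • (algebraMap (𝓞 L) (𝓞 Ω) a) = algebraMap (𝓞 L) (𝓞 Ω) (σ • a) := by
    intro a
    rw [hσ2, mul_smul, h1', hτs]
    apply RingOfIntegers.ext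
    exact τ.commutes _
  have hle : Q ≤ Q.comap (MulSemiringAction.toRingHom (Ω ≃ₐ[K] Ω) (𝓞 Ω) σ2) :=
    fun x hx => (h2 x).1 hx
  have hbij : Function.Bijective (Ideal.quotientMap Q
      (MulSemiringAction.toRingHom (Ω ≃ₐ[K] Ω) (𝓞 Ω) σ2) hle) := by
    constructor
    · apply Ideal.quotientMap_injective'
      intro x hx
      exact (h2 x).2 hx
    · apply Ideal.quotientMap_surjective
      intro y
      exact ⟨σ2⁻¹ • y, smul_inv_smul σ2 y⟩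
  obtain ⟨ρ, hρ⟩ := exists_residue_lift (K := L) Q hQ (RingEquiv.ofBijective _ hbij) (by
    intro a
    rw [RingEquiv.ofBijective_apply, Ideal.quotientMap_mk, MulSemiringAction.toRingHom_apply, h2L,
      Ideal.Quotient.eq, ← map_sub, ← Ideal.mem_comap, hQP]
    exact hσ a)
  have hρ' : ∀ x : 𝓞 Ω, ρ • x - σ2 • x ∈ Q := by
    intro x
    rw [← Ideal.Quotient.eq, hρ]
    rfl
  have hρs : ∀ x : 𝓞 Ω, (ρ.restrictScalars K) • x = ρ • x := fun x => rfl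
  have hρQ : ∀ y : 𝓞 Ω, ρ • y ∈ Q → y ∈ Q := by
    intro y hy
    rw [h2]
    have := Q.sub_mem hy (hρ' y)
    simpa using this
  refine ⟨(ρ.restrictScalars K)⁻¹ * σ2, fun x => ?_, fun y => ?_⟩
  · apply hρQ
    have h5 : ρ • ((ρ.restrictScalars K)⁻¹ • (σ2 • x)) = σ2 • x :=
      smul_inv_smul (ρ.restrictScalars K) (σ2 • x)
    rw [smul_sub, mul_smul, h5]
    have := Q.neg_mem (hρ' x)
    simpa using this
  · have h3 : σ2 (algebraMap L Ω y) = algebraMap L Ω (σ y) := by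
      rw [hσ2, AlgEquiv.mul_apply, h1]
      exact τ.commutes _
    rw [AlgEquiv.mul_apply, h3]
    have h4 : (ρ.restrictScalars K) (algebraMap L Ω (σ y)) = algebraMap L Ω (σ y) :=
      ρ.commutes _
    apply (ρ.restrictScalars K).injective
    rw [h4]
    exact AlgEquiv.apply_symm_apply (ρ.restrictScalars K) _

end lift

end Vale.Agent.P022.H867
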