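import Mathlib

/-! # Formal part of the proof of Artin reciprocity

`P` is the set of primes of a number field `K`, `Γ` the group of characters of finite order of
the absolute Galois group of `K`.  From the first inequality for cyclic extensions, the second
inequality, the density of split primes and twists by cyclotomic characters we deduce that every
Galois character is a ray class character, with a modulus supported on the ramified primes. -/

namespace Vale.Agent.P022.H867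

open Filter Subgroup

theorem card_sup_mul_card_inf {G : Type*} [CommGroup G] (H K : Subgroup G) :
    Nat.card (H ⊔ K : Subgroup G) * Nat.card (K ⊓ H : Subgroup G) =
      Nat.card H * Nat.card K := by
  have h1 := relIndex_mul_relIndex (⊥ : Subgroup G) K (H ⊔ K) bot_le le_sup_right
  have h2 : K.relIndex (H ⊔ K) = K.relIndex H := relIndex_sup_right _ _
  have h3 := relIndex_mul_relIndex (⊥ : Subgroup G) (K ⊓ H) H bot_le inf_le_right
  have h4 : (K ⊓ H).relIndex H = K.relIndex H := inf_relIndex_right K H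
  rw [relIndex_bot_left] at h1 h3
  rw [relIndex_bot_left] at h1 h3
  rw [← h1, ← h3, h2, h4]
  ring

theorem orderOf_mul_zpow {G : Type*} [CommGroup G] {ψ w : G}
    (h : Disjoint (zpowers ψ) (zpowers w)) (a : ℤ) :
    orderOf (ψ * w ^ a) = orderOf ψ * orderOf (w ^ (a * orderOf ψ)) := by
  apply Nat.dvd_antisymm
  · apply orderOf_dvd_of_pow_eq_one
    rw [mul_pow, pow_mul, pow_orderOf_eq_one, one_pow, one_mul, pow_mul]
    have : (w ^ a) ^ orderOf ψ = w ^ (a * orderOf ψ) := by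
      rw [zpow_mul, zpow_natCast]
    rw [this, pow_orderOf_eq_one]
  · set j := orderOf (ψ * w ^ a) with hj
    have h1 : (ψ * w ^ a) ^ j = 1 := pow_orderOf_eq_one _
    rw [mul_pow] at h1
    have h2 : ψ ^ j ∈ zpowers w := by
      rw [eq_inv_of_mul_eq_one_left h1]
      exact inv_mem (pow_mem (zpow_mem (mem_zpowers w) a) j)
    have h3 : ψ ^ j = 1 := by
      have := Subgroup.disjoint_def.1 h (pow_mem (mem_zpowers ψ) j) h2
      exact this
    obtain ⟨i, hi⟩ := orderOf_dvd_of_pow_eq_one h3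
    rw [hi]
    apply Nat.mul_dvd_mul_left
    apply orderOf_dvd_of_pow_eq_one
    rw [h3, one_mul, hi] at h1
    rw [zpow_mul, zpow_natCast, ← pow_mul]
    exact h1

/-- The formal data.  `res p` is the residue characteristic, `ev ψ p` the value of `ψ` at a
Frobenius element over `p`, `ram ψ` the set of rational primes over which `ψ` ramifies, `RC M`
the group of functions on primes which are ray class characters modulo `M` (away from `M`). -/
structure RecSys (P Γ : Type*) [CommGroup Γ] where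
  res : P → ℕ
  res_prime : ∀ p, (res p).Prime
  res_fin : ∀ M : ℕ, 0 < M → {p | res p ∣ M}.Finite
  ev : Γ →* (P → ℂˣ)
  ram : Γ → Set ℕ
  ram_fin : ∀ ψ, (ram ψ).Finite
  ram_prime : ∀ ψ, ∀ l ∈ ram ψ, l.Prime
  ram_one : ram 1 = ∅
  ram_mul : ∀ ψ φ, ram (ψ * φ) ⊆ ram ψ ∪ ram φ
  ram_inv : ∀ ψ, ram ψ⁻¹ ⊆ ram ψ
  RC : ℕ → Subgroup (P → ℂˣ)
  RC_mono : ∀ {M M' : ℕ}, 0 < M' → M ∣ M' → RC M ≤ RC M'
  RC_congr : ∀ (M : ℕ) (f g : P → ℂˣ), f ∈ RC M → (∀ p, ¬ res p ∣ M → f p = g p) → g ∈ RC M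
  RC_sep : ∀ M : ℕ, 0 < M → ∀ f ∈ RC M, (∀ᶠ p in cofinite, f p = 1) →
    ∀ p, ¬ res p ∣ M → f p = 1
  /-- first inequality for the cyclic extension cut out by `ψ` -/
  first : ∀ ψ : Γ, IsOfFinOrder ψ → ∀ T : Finset ℕ, (∀ l ∈ T, l.Prime ∧ l ∉ ram ψ) →
    ∃ M : ℕ, 0 < M ∧ (∀ l ∈ T, ¬ l ∣ M) ∧ (∀ l ∈ ram ψ, l ∣ M) ∧
    ∃ s : Finset (P → ℂˣ), orderOf ψ ≤ s.card ∧ ∀ f ∈ s, f ∈ RC M ∧ (∀ p, res p ∣ M → f p = 1) ∧
      ∀ p, ¬ res p ∣ M → ev ψ p = 1 → f p = 1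
  /-- second inequality -/
  second : ∀ B : Subgroup Γ, Finite B → ∀ s : Finset (P → ℂˣ),
    (∀ f ∈ s, ∃ M : ℕ, 0 < M ∧ f ∈ RC M) →
    (∀ f ∈ s, ∀ᶠ p in cofinite, (∀ ψ ∈ B, ev ψ p = 1) → f p = 1) →
    (∀ f ∈ s, ∀ g ∈ s, (∀ᶠ p in cofinite, f p = g p) → f = g) → s.card ≤ Nat.card B
  /-- density of split primes -/
  split : ∀ ψ φ : Γ, IsOfFinOrder ψ → IsOfFinOrder φ →
    (∀ᶠ p in cofinite, ev ψ p = 1 → ev φ p = 1) → φ ∈ zpowers ψ
  /-- cyclotomic twists -/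
  twist : ∀ (r e : ℕ), r.Prime → ∀ (S : Finset ℕ) (p : P), ∃ (q : ℕ) (w : Γ), q.Prime ∧ q ∉ S ∧
    q ≠ res p ∧ IsOfFinOrder w ∧ ram w ⊆ {q} ∧ ev w ∈ RC q ∧ r ^ e ∣ orderOf (ev w p) ∧
    ∀ (k : ℤ) (M : ℕ), 0 < M → ¬ q ∣ M → (∃ f ∈ RC M, ∀ᶠ p in cofinite, f p = ev (w ^ k) p) →
      w ^ k = 1

namespace RecSys

variable {P Γ : Type*} [CommGroup Γ] (S : RecSys P Γ)

/-- Germs of functions on primes, for equality at almost all primes. -/
abbrev Q (P : Type*) : Type _ := Germ (cofinite : Filter P) ℂˣ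

/-- The germ of a function. -/
abbrev g : (P → ℂˣ) →* Q P := Germ.coeMulHom (cofinite : Filter P)

theorem g_eq {f h : P → ℂˣ} : g f = g h ↔ ∀ᶠ p in cofinite, f p = h p := Germ.coe_eq

theorem g_eq_one {f : P → ℂˣ} : g f = 1 ↔ ∀ᶠ p in cofinite, f p = 1 := by
  rw [← map_one (g (P := P)), g_eq]
  rfl

/-- The germ of a Galois character. -/
def rho : Γ →* Q P := g.comp S.ev

theorem rho_apply (ψ : Γ) : S.rho ψ = g (S.ev ψ) := rfl

theorem ram_pow (ψ : Γ) (k : ℕ) : S.ram (ψ ^ k) ⊆ S.ram ψ := by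
  induction k with
  | zero => simp [S.ram_one]
  | succ k ih =>
    rw [pow_succ]
    exact (S.ram_mul _ _).trans (Set.union_subset ih le_rfl)

theorem ram_zpow (ψ : Γ) (k : ℤ) : S.ram (ψ ^ k) ⊆ S.ram ψ := by
  obtain ⟨n, rfl | rfl⟩ := k.eq_nat_or_neg
  · rw [zpow_natCast]; exact S.ram_pow ψ n
  · rw [zpow_neg, zpow_natCast]; exact (S.ram_inv _).trans (S.ram_pow ψ n)

/-- Germs of ray class characters modulo `M`. -/
def RG (M : ℕ) : Subgroup (Q P) := (S.RC M).map g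

theorem mem_RG {M : ℕ} {y : Q P} : y ∈ S.RG M ↔ ∃ f ∈ S.RC M, g f = y := Subgroup.mem_map

theorem RG_mono {M M' : ℕ} (h : 0 < M') (hd : M ∣ M') : S.RG M ≤ S.RG M' :=
  Subgroup.map_mono (S.RC_mono h hd)

/-- Germs of ray class characters which are trivial at the primes split by `B`. -/
def X (B : Subgroup Γ) : Subgroup (Q P) where
  carrier := {y | ∃ M : ℕ, 0 < M ∧ ∃ f ∈ S.RC M, g f = y ∧
    ∀ᶠ p in cofinite, (∀ ψ ∈ B, S.ev ψ p = 1) → f p = 1}
  one_mem' := ⟨1, one_pos, 1, one_mem _, map_one _, Eventually.of_forall fun _ _ => rfl⟩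
  mul_mem' := by
    rintro _ _ ⟨M, hM, f, hf, rfl, h⟩ ⟨M', hM', f', hf', rfl, h'⟩
    refine ⟨M * M', Nat.mul_pos hM hM', f * f', mul_mem
      (S.RC_mono (Nat.mul_pos hM hM') (dvd_mul_right _ _) hf)
      (S.RC_mono (Nat.mul_pos hM hM') (dvd_mul_left _ _) hf'), map_mul _ _ _, ?_⟩
    filter_upwards [h, h'] with p hp hp' hB
    rw [Pi.mul_apply, hp hB, hp' hB, one_mul]
  inv_mem' := by
    rintro _ ⟨M, hM, f, hf, rfl, h⟩
    refine ⟨M, hM, f⁻¹, inv_mem hf, map_inv _ _, ?_⟩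
    filter_upwards [h] with p hp hB
    rw [Pi.inv_apply, hp hB, inv_one]

theorem mem_X {B : Subgroup Γ} {y : Q P} : y ∈ S.X B ↔ ∃ M : ℕ, 0 < M ∧ ∃ f ∈ S.RC M, g f = y ∧
    ∀ᶠ p in cofinite, (∀ ψ ∈ B, S.ev ψ p = 1) → f p = 1 := Iff.rfl

theorem X_mono {B C : Subgroup Γ} (h : B ≤ C) : S.X B ≤ S.X C := by
  rintro _ ⟨M, hM, f, hf, rfl, hB⟩
  refine ⟨M, hM, f, hf, rfl, ?_⟩
  filter_upwards [hB] with p hp hC
  exact hp fun ψ hψ => hC ψ (h hψ)

theorem forall_zpowers {ψ : Γ} {p : P} : (∀ φ ∈ zpowers ψ, S.ev φ p = 1) ↔ S.ev ψ p = 1 := by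
  constructor
  · intro h
    exact h ψ (mem_zpowers ψ)
  · rintro h _ ⟨k, rfl⟩
    simp [h]

theorem X_finset {B : Subgroup Γ} [Finite B] (t : Finset (Q P)) (ht : ∀ y ∈ t, y ∈ S.X B) :
    t.card ≤ Nat.card B := by
  classical
  have h : ∀ y : Q P, ∃ f : P → ℂˣ, g f = y ∧ (y ∈ S.X B → (∃ M : ℕ, 0 < M ∧ f ∈ S.RC M) ∧
      ∀ᶠ p in cofinite, (∀ ψ ∈ B, S.ev ψ p = 1) → f p = 1) := by
    intro y
    by_cases hy : y ∈ S.X B
    · obtain ⟨M, hM, f, hf, hfy, h⟩ := hy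
      exact ⟨f, hfy, fun _ => ⟨⟨M, hM, hf⟩, h⟩⟩
    · obtain ⟨f, hf⟩ : ∃ f : P → ℂˣ, g f = y := Quotient.exists_rep y
      exact ⟨f, hf, fun h => absurd h hy⟩
  choose F hF hF' using h
  have hinj : Set.InjOn F t := by
    intro y _ z _ h
    rw [← hF y, ← hF z, h]
  rw [← Finset.card_image_of_injOn hinj]
  refine S.second B ‹_› _ ?_ ?_ ?_
  · intro f hf
    obtain ⟨y, hy, rfl⟩ := Finset.mem_image.1 hf
    exact (hF' y (ht y hy)).1
  · intro f hf
    obtain ⟨y, hy, rfl⟩ := Finset.mem_image.1 hf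
    exact (hF' y (ht y hy)).2
  · intro f hf h hh he
    obtain ⟨y, hy, rfl⟩ := Finset.mem_image.1 hf
    obtain ⟨z, hz, rfl⟩ := Finset.mem_image.1 hh
    rw [← g_eq, hF, hF] at he
    rw [he]

theorem X_finite (B : Subgroup Γ) [Finite B] : Finite (S.X B) := by
  by_contra hinf
  have : (S.X B : Set (Q P)).Infinite := by
    rw [Set.Infinite, ← Set.finite_coe_iff]
    exact hinf
  obtain ⟨t, ht, hc⟩ := this.exists_subset_card_eq (Nat.card B + 1)
  have := S.X_finset (B := B) t (fun y hy => ht hy)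
  omega

theorem X_card (B : Subgroup Γ) [Finite B] : Nat.card (S.X B) ≤ Nat.card B := by
  classical
  have := S.X_finite B
  have hfin : (S.X B : Set (Q P)).Finite := Set.toFinite _
  have h := S.X_finset (B := B) hfin.toFinset (fun y hy => (hfin.mem_toFinset).1 hy)
  rwa [← Set.ncard_eq_toFinset_card _ hfin] at h

/-- Strong representatives of the characters in `X`. -/
theorem X_cyc (ψ : Γ) (hψ : IsOfFinOrder ψ) (T : Finset ℕ) (hT : ∀ l ∈ T, l.Prime ∧ l ∉ S.ram ψ) :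
    Nat.card (S.X (zpowers ψ)) = orderOf ψ ∧
    ∃ M : ℕ, 0 < M ∧ (∀ l ∈ T, ¬ l ∣ M) ∧ (∀ l ∈ S.ram ψ, l ∣ M) ∧
    ∀ y ∈ S.X (zpowers ψ), ∃ f ∈ S.RC M, g f = y ∧
      ∀ p, ¬ S.res p ∣ M → S.ev ψ p = 1 → f p = 1 := by
  classical
  obtain ⟨M, hM, hdiv, hram, s, hs, hs'⟩ := S.first ψ hψ T hT
  have : Finite (zpowers ψ) := hψ.finite_zpowers
  have hfin := S.X_finite (zpowers ψ)
  have hfin' : (S.X (zpowers ψ) : Set (Q P)).Finite := Set.toFinite _
  have hcard := S.X_card (zpowers ψ)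
  rw [Nat.card_zpowers] at hcard
  have hinj : Set.InjOn (g (P := P)) s := by
    intro f hf h hh he
    obtain ⟨h1, h2, -⟩ := hs' f hf
    obtain ⟨h1', h2', -⟩ := hs' h hh
    have he' : ∀ᶠ p in cofinite, (f / h) p = 1 := by
      filter_upwards [g_eq.1 he] with p hp
      rw [Pi.div_apply, hp, div_self']
    funext p
    by_cases hp : S.res p ∣ M
    · rw [h2 p hp, h2' p hp]
    · have := S.RC_sep M hM (f / h) (div_mem h1 h1') he' p hp
      rwa [Pi.div_apply, div_eq_one] at this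
  have hsub : s.image (g (P := P)) ⊆ hfin'.toFinset := by
    intro y hy
    obtain ⟨f, hf, rfl⟩ := Finset.mem_image.1 hy
    obtain ⟨h1, h2, h3⟩ := hs' f hf
    rw [hfin'.mem_toFinset]
    refine ⟨M, hM, f, h1, rfl, ?_⟩
    have hev : ∀ᶠ p in cofinite, ¬ S.res p ∣ M := by
      rw [eventually_cofinite]
      simpa using S.res_fin M hM
    filter_upwards [hev] with p hp hB
    exact h3 p hp (S.forall_zpowers.1 hB)
  have hcard' : hfin'.toFinset.card ≤ (s.image (g (P := P))).card := by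
    rw [Finset.card_image_of_injOn hinj]
    rw [← Set.ncard_eq_toFinset_card _ hfin']
    exact hcard.trans hs
  have heq := Finset.eq_of_subset_of_card_le hsub hcard'
  refine ⟨le_antisymm hcard ?_, M, hM, hdiv, hram, ?_⟩
  · have : Nat.card (S.X (zpowers ψ)) = hfin'.toFinset.card := by
      rw [← Set.ncard_eq_toFinset_card _ hfin']
      rfl
    rw [this, ← heq, Finset.card_image_of_injOn hinj]
    exact hs
  · intro y hy
    have hy' : y ∈ s.image (g (P := P)) := by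
      rw [heq, hfin'.mem_toFinset]
      exact hy
    obtain ⟨f, hf, rfl⟩ := Finset.mem_image.1 hy'
    obtain ⟨h1, h2, h3⟩ := hs' f hf
    exact ⟨f, h1, rfl, h3⟩

theorem card_X_cyc (ψ : Γ) (hψ : IsOfFinOrder ψ) : Nat.card (S.X (zpowers ψ)) = orderOf ψ :=
  (S.X_cyc ψ hψ ∅ (by simp)).1

theorem rho_injective {ψ : Γ} (hψ : IsOfFinOrder ψ) (h : S.rho ψ = 1) : ψ = 1 := by
  have := S.split 1 ψ IsOfFinOrder.one hψ (by
    filter_upwards [g_eq_one.1 h] with p hp _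
    exact hp)
  simpa using this

theorem orderOf_rho {w : Γ} (hw : IsOfFinOrder w) : orderOf (S.rho w) = orderOf w := by
  apply Nat.dvd_antisymm
  · exact orderOf_map_dvd _ _
  · apply orderOf_dvd_of_pow_eq_one
    apply S.rho_injective (hw.pow)
    rw [map_pow, pow_orderOf_eq_one]

/-- The hypotheses of the main step: `w` is a twist independent of `ψ`. -/
structure Good (ψ w : Γ) : Prop where
  fψ : IsOfFinOrder ψ
  fw : IsOfFinOrder w
  gal : Disjoint (zpowers ψ) (zpowers w)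
  ray : Disjoint (S.X (zpowers ψ)) (zpowers (S.rho w))
  mem : S.rho w ∈ S.X (zpowers w)

variable {S}

theorem fin_mul_zpow {ψ w : Γ} (hψ : IsOfFinOrder ψ) (hw : IsOfFinOrder w) (a : ℤ) :
    IsOfFinOrder (ψ * w ^ a) := hψ.mul hw.zpow

theorem Good.finite_sup {ψ w : Γ} (h : S.Good ψ w) :
    Finite (zpowers ψ ⊔ zpowers w : Subgroup Γ) := by
  have h1 : Finite (zpowers ψ) := h.fψ.finite_zpowers
  have h2 : Finite (zpowers w) := h.fw.finite_zpowers
  have := card_sup_mul_card_inf (zpowers ψ) (zpowers w)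
  apply Nat.finite_of_card_ne_zero
  intro h0
  rw [h0, zero_mul] at this
  exact absurd this (Nat.mul_pos (Nat.card_pos) (Nat.card_pos)).ne

theorem Good.card_sup {ψ w : Γ} (h : S.Good ψ w) :
    Nat.card (zpowers ψ ⊔ zpowers w : Subgroup Γ) = orderOf ψ * orderOf w := by
  have := card_sup_mul_card_inf (zpowers ψ) (zpowers w)
  rw [inf_comm, h.gal.eq_bot, Subgroup.card_bot, mul_one, Nat.card_zpowers,
    Nat.card_zpowers] at this
  exact this

theorem Good.X_sup {ψ w : Γ} (h : S.Good ψ w) :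
    S.X (zpowers ψ) ⊔ zpowers (S.rho w) = S.X (zpowers ψ ⊔ zpowers w) := by
  have hfin := h.finite_sup
  have hfin2 := S.X_finite (zpowers ψ ⊔ zpowers w)
  apply Subgroup.eq_of_le_of_card_ge
  · refine sup_le (S.X_mono le_sup_left) ?_
    rw [zpowers_le]
    exact S.X_mono le_sup_right h.mem
  · refine (S.X_card _).trans ?_
    rw [h.card_sup]
    have := card_sup_mul_card_inf (S.X (zpowers ψ)) (zpowers (S.rho w))
    rw [inf_comm, h.ray.eq_bot, Subgroup.card_bot, mul_one, Nat.card_zpowers,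
      S.orderOf_rho h.fw] at this
    rw [this, S.card_X_cyc ψ h.fψ]

theorem Good.one {ψ w : Γ} (h : S.Good ψ w) (a : ℤ) :
    S.X (zpowers (ψ * w ^ a)) ≤ S.X (zpowers ψ) ⊔ zpowers (S.rho w) := by
  rw [h.X_sup]
  apply S.X_mono
  rw [zpowers_le]
  exact mul_mem_sup (mem_zpowers ψ) (zpow_mem (mem_zpowers w) a)

theorem Good.three {ψ w : Γ} (h : S.Good ψ w) (a k : ℤ)
    (hk : S.rho (w ^ k) ∈ S.X (zpowers (ψ * w ^ a))) :
    w ^ k ∈ zpowers (w ^ (a * orderOf ψ)) := by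
  obtain ⟨M, hM, f, hf, hfg, hev⟩ := hk
  have h1 : w ^ k ∈ zpowers (ψ * w ^ a) := by
    apply S.split _ _ (fin_mul_zpow h.fψ h.fw a) h.fw.zpow
    filter_upwards [hev, g_eq.1 hfg] with p hp hp' hp''
    rw [← hp']
    exact hp (S.forall_zpowers.2 hp'')
  obtain ⟨j, hj⟩ := mem_zpowers_iff.1 h1
  rw [mul_zpow] at hj
  have h2 : ψ ^ j ∈ zpowers w := by
    rw [eq_div_of_mul_eq' hj]
    exact div_mem (zpow_mem (mem_zpowers w) k) (zpow_mem (zpow_mem (mem_zpowers w) a) j)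
  have h3 : ψ ^ j = 1 := Subgroup.disjoint_def.1 h.gal (zpow_mem (mem_zpowers ψ) j) h2
  obtain ⟨i, hi⟩ := orderOf_dvd_iff_zpow_eq_one.2 h3
  rw [h3, one_mul] at hj
  rw [← hj, mem_zpowers_iff]
  refine ⟨i, ?_⟩
  rw [hi, zpow_mul, zpow_mul]

theorem Good.two {ψ w : Γ} (h : S.Good ψ w) (a : ℤ) :
    S.X (zpowers ψ) ≤ S.X (zpowers (ψ * w ^ a)) ⊔ zpowers (S.rho w) := by
  have hle : S.X (zpowers (ψ * w ^ a)) ⊔ zpowers (S.rho w) ≤
      S.X (zpowers ψ) ⊔ zpowers (S.rho w) := sup_le (h.one a) le_sup_right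
  have hfin := h.finite_sup
  have hfin2 : Finite (S.X (zpowers ψ) ⊔ zpowers (S.rho w) : Subgroup (Q P)) := by
    rw [h.X_sup]
    exact S.X_finite (zpowers ψ ⊔ zpowers w)
  have hcyc : Nat.card (S.X (zpowers (ψ * w ^ a))) = orderOf ψ * orderOf (w ^ (a * orderOf ψ)) := by
    rw [S.card_X_cyc _ (fin_mul_zpow h.fψ h.fw a), orderOf_mul_zpow h.gal]
  have hinf : Nat.card (zpowers (S.rho w) ⊓ S.X (zpowers (ψ * w ^ a)) : Subgroup (Q P)) ≤
      orderOf (w ^ (a * orderOf ψ)) := by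
    have hz : zpowers (S.rho w) ⊓ S.X (zpowers (ψ * w ^ a)) ≤
        zpowers (S.rho (w ^ (a * orderOf ψ))) := by
      rintro y ⟨hy1, hy2⟩
      obtain ⟨k, rfl⟩ := mem_zpowers_iff.1 hy1
      have := h.three a k (by rw [map_zpow]; exact hy2)
      rw [← map_zpow]
      obtain ⟨j, hj⟩ := mem_zpowers_iff.1 this
      rw [← hj, map_zpow S.rho (w ^ (a * orderOf ψ)) j]
      exact zpow_mem (mem_zpowers _) j
    have : Finite (zpowers (S.rho (w ^ (a * orderOf ψ)))) := by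
      apply IsOfFinOrder.finite_zpowers
      exact (S.rho).isOfFinOrder h.fw.zpow
    refine (Subgroup.card_le_of_le hz).trans ?_
    rw [Nat.card_zpowers]
    exact (S.orderOf_rho h.fw.zpow).le
  have hmul := card_sup_mul_card_inf (S.X (zpowers (ψ * w ^ a))) (zpowers (S.rho w))
  rw [hcyc, Nat.card_zpowers, S.orderOf_rho h.fw] at hmul
  have hpos : 0 < orderOf (w ^ (a * orderOf ψ)) := (h.fw.zpow).orderOf_pos
  have hcard2 : Nat.card (S.X (zpowers ψ) ⊔ zpowers (S.rho w) : Subgroup (Q P)) ≤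
      orderOf ψ * orderOf w := by
    rw [h.X_sup, ← h.card_sup]
    exact S.X_card _
  have heq : S.X (zpowers (ψ * w ^ a)) ⊔ zpowers (S.rho w) =
      S.X (zpowers ψ) ⊔ zpowers (S.rho w) := by
    apply Subgroup.eq_of_le_of_card_ge hle
    refine hcard2.trans ?_
    have h5 : orderOf ψ * orderOf (w ^ (a * orderOf ψ)) * orderOf w ≤
        Nat.card (S.X (zpowers (ψ * w ^ a)) ⊔ zpowers (S.rho w) : Subgroup (Q P)) *
          orderOf (w ^ (a * orderOf ψ)) := by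
      rw [← hmul]
      exact Nat.mul_le_mul_left _ hinf
    have h6 : orderOf ψ * orderOf (w ^ (a * orderOf ψ)) * orderOf w =
      (orderOf ψ * orderOf w) * orderOf (w ^ (a * orderOf ψ)) := by ring
    rw [h6] at h5
    exact Nat.le_of_mul_le_mul_right h5 hpos
  rw [heq]
  exact le_sup_left


/-- `w` is a twist at the prime `q`. -/
structure Cyc (S : RecSys P Γ) (q : ℕ) (w : Γ) : Prop where
  pr : q.Prime
  fin : IsOfFinOrder w
  ramq : S.ram w ⊆ {q}
  rc : S.ev w ∈ S.RC q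
  ind : ∀ (k : ℤ) (M : ℕ), 0 < M → ¬ q ∣ M → S.rho (w ^ k) ∈ S.RG M → w ^ k = 1

theorem exists_cyc (r e : ℕ) (hr : r.Prime) (T : Finset ℕ) (p : P) :
    ∃ (q : ℕ) (w : Γ), q ∉ T ∧ q ≠ S.res p ∧ S.Cyc q w ∧ r ^ e ∣ orderOf (S.ev w p) := by
  obtain ⟨q, w, h1, h2, h3, h4, h5, h6, h7, h8⟩ := S.twist r e hr T p
  refine ⟨q, w, h2, h3, ⟨h1, h4, h5, h6, ?_⟩, h7⟩
  rintro k M hM hq ⟨f, hf, hfg⟩
  exact h8 k M hM hq ⟨f, hf, g_eq.1 hfg⟩

theorem Cyc.rho_pow_mem {q : ℕ} {w : Γ} (h : S.Cyc q w) (k : ℤ) :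
    S.rho (w ^ k) ∈ S.X (zpowers (w ^ k)) := by
  refine ⟨q, h.pr.pos, S.ev (w ^ k), ?_, rfl, ?_⟩
  · rw [map_zpow]
    exact zpow_mem h.rc k
  · exact Eventually.of_forall fun p hp => S.forall_zpowers.1 hp

theorem Cyc.good {q : ℕ} {w ψ : Γ} (h : S.Cyc q w) (hψ : IsOfFinOrder ψ) (hq : q ∉ S.ram ψ) :
    S.Good ψ w where
  fψ := hψ
  fw := h.fin
  gal := by
    rw [Subgroup.disjoint_def]
    intro x hx hx'
    obtain ⟨k, rfl⟩ := mem_zpowers_iff.1 hx'
    obtain ⟨j, hj⟩ := mem_zpowers_iff.1 hx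
    have hr : q ∉ S.ram (w ^ k) := fun hc => hq (S.ram_zpow ψ j (by rw [hj]; exact hc))
    obtain ⟨-, M, hM, hT, -, hy⟩ := S.X_cyc (w ^ k) h.fin.zpow {q}
      (by simpa using ⟨h.pr, hr⟩)
    obtain ⟨f, hf, hfg, -⟩ := hy _ (h.rho_pow_mem k)
    exact h.ind k M hM (hT q (by simp)) ⟨f, hf, hfg⟩
  ray := by
    rw [Subgroup.disjoint_def]
    intro x hx hx'
    obtain ⟨k, rfl⟩ := mem_zpowers_iff.1 hx'
    obtain ⟨-, M, hM, hT, -, hy⟩ := S.X_cyc ψ hψ {q} (by simpa using ⟨h.pr, hq⟩)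
    obtain ⟨f, hf, hfg, -⟩ := hy _ hx
    have := h.ind k M hM (hT q (by simp)) ⟨f, hf, by rw [hfg, map_zpow]⟩
    rw [← map_zpow, this, map_one]
  mem := by simpa using h.rho_pow_mem 1

/-- In the cyclic group of roots of unity, an element of order dividing `n` is a power of any
element whose order is divisible by `n`. -/
theorem exists_zpow_eq {n : ℕ} {x y : ℂˣ} (hx : x ^ n = 1) (hy : n ∣ orderOf y)
    (hy0 : orderOf y ≠ 0) : ∃ d : ℤ, x * y ^ d = 1 := by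
  set N := orderOf y with hN
  have hprim : IsPrimitiveRoot y N := IsPrimitiveRoot.orderOf y
  have hxN : x ^ N = 1 := by
    obtain ⟨c, hc⟩ := hy
    rw [hc, pow_mul, hx, one_pow]
  have : NeZero N := ⟨hy0⟩
  have hprim' : IsPrimitiveRoot (y : ℂ) N := IsPrimitiveRoot.coe_units_iff.2 hprim
  have hx' : ((x⁻¹ : ℂˣ) : ℂ) ^ N = 1 := by
    rw [← Units.val_pow_eq_pow_val, inv_pow, hxN, inv_one, Units.val_one]
  obtain ⟨i, -, hi⟩ := hprim'.eq_pow_of_pow_eq_one hx'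
  refine ⟨i, ?_⟩
  rw [zpow_natCast]
  have : y ^ i = x⁻¹ := Units.ext (by rw [Units.val_pow_eq_pow_val, hi])
  rw [this, mul_inv_cancel]

/-- Key step: comparison of a ray class character with a Galois character at one prime. -/
theorem key {χ : Γ} (hχ : IsOfFinOrder χ) {r e : ℕ} (hr : r.Prime) (hn : orderOf χ = r ^ e)
    {M : ℕ} (hM : 0 < M) (hram : ∀ l ∈ S.ram χ, l ∣ M)
    {q : ℕ} {w : Γ} (hw : S.Cyc q w) (hqM : ¬ q ∣ M) (hord : r ^ e ∣ orderOf w)
    {f : P → ℂˣ} (hf : f ∈ S.RC M) (hfX : g f ∈ S.X (zpowers χ))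
    {k : ℤ} (hk : g f * S.rho w ^ k ∈ S.X (zpowers (χ * w)))
    (p : P) (hp : ¬ S.res p ∣ M) : f p = S.ev χ p ^ k := by
  classical
  have hqχ : q ∉ S.ram χ := fun h => hqM (hram q h)
  set T : Finset ℕ := M.primeFactors ∪ {q} with hT
  obtain ⟨q', w', hq'T, hq'p, hw', hord'⟩ := S.exists_cyc r e hr T p
  have hq'M : ¬ q' ∣ M := fun h => hq'T (by
    rw [hT, Finset.mem_union]
    exact Or.inl (Nat.mem_primeFactors.2 ⟨hw'.pr, h, hM.ne'⟩))
  have hq'q : q' ≠ q := fun h => hq'T (by rw [hT, h]; simp)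
  have hq'χ : q' ∉ S.ram χ := fun h => hq'M (hram q' h)
  have hMq : 0 < M * q := Nat.mul_pos hM hw.pr.pos
  have hq'Mq : ¬ q' ∣ M * q := by
    intro h
    rcases (Nat.Prime.dvd_mul hw'.pr).1 h with h | h
    · exact hq'M h
    · exact hq'q ((Nat.prime_dvd_prime_iff_eq hw'.pr hw.pr).1 h)
  have hpr : S.res p ∉ S.ram χ := fun h => hp (hram _ h)
  -- the exponent `d`
  have hχp : S.ev χ p ^ (r ^ e) = 1 := by
    rw [← Pi.pow_apply, ← map_pow, ← hn, pow_orderOf_eq_one, map_one, Pi.one_apply]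
  have hfin : IsOfFinOrder (S.ev w' p) := by
    have := (Pi.evalMonoidHom (fun _ : P => ℂˣ) p).isOfFinOrder ((S.ev).isOfFinOrder hw'.fin)
    exact this
  obtain ⟨d, hd⟩ := exists_zpow_eq hχp hord' hfin.orderOf_pos.ne'
  -- ramification of the twisted characters
  have ram1 : q ∉ S.ram (χ * w' ^ d) := by
    intro h
    rcases S.ram_mul _ _ h with h | h
    · exact hqχ h
    · exact hq'q (hw'.ramq (S.ram_zpow w' d h)).symm
  have ram2 : q' ∉ S.ram (χ * w) := by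
    intro h
    rcases S.ram_mul _ _ h with h | h
    · exact hq'χ h
    · exact hq'q (hw.ramq h)
  have ram3 : S.res p ∉ S.ram (χ * w' ^ d) := by
    intro h
    rcases S.ram_mul _ _ h with h | h
    · exact hpr h
    · exact hq'p (hw'.ramq (S.ram_zpow w' d h)).symm
  have G1 : S.Good χ w := hw.good hχ hqχ
  have G2 : S.Good χ w' := hw'.good hχ hq'χ
  have G3 : S.Good (χ * w' ^ d) w := hw.good (fin_mul_zpow hχ hw'.fin d) ram1
  have G4 : S.Good (χ * w) w' := hw'.good (hχ.mul hw.fin) ram2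
  -- representatives modulo `M`
  obtain ⟨-, M1, hM1, hM1T, -, hrep⟩ := S.X_cyc χ hχ {q'} (by simpa using ⟨hw'.pr, hq'χ⟩)
  -- independence of `X χ`, `w`, `w'`
  have ind : ∀ y ∈ S.X (zpowers χ), ∀ a b : ℤ, y * S.rho w ^ a * S.rho w' ^ b = 1 →
      y = 1 ∧ w ^ a = 1 ∧ w' ^ b = 1 := by
    intro y hy a b h
    have h1 : S.rho (w' ^ b) ∈ S.RG (M1 * q) := by
      rw [map_zpow, eq_inv_of_mul_eq_one_right h]
      obtain ⟨f', hf', hfg', -⟩ := hrep y hy
      have hpos : 0 < M1 * q := Nat.mul_pos hM1 hw.pr.pos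
      refine inv_mem (mul_mem (S.RG_mono hpos (dvd_mul_right _ _) ⟨f', hf', hfg'⟩) ?_)
      refine S.RG_mono hpos (dvd_mul_left _ _) ?_
      rw [← map_zpow]
      exact ⟨S.ev (w ^ a), by rw [map_zpow]; exact zpow_mem hw.rc a, rfl⟩
    have h2 : w' ^ b = 1 := by
      refine hw'.ind b (M1 * q) (Nat.mul_pos hM1 hw.pr.pos) ?_ h1
      intro h
      rcases (Nat.Prime.dvd_mul hw'.pr).1 h with h | h
      · exact hM1T q' (by simp) h
      · exact hq'q ((Nat.prime_dvd_prime_iff_eq hw'.pr hw.pr).1 h)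
    have h3 : S.rho w' ^ b = 1 := by rw [← map_zpow, h2, map_one]
    rw [h3, mul_one] at h
    have h4 : y ∈ zpowers (S.rho w) := by
      rw [eq_inv_of_mul_eq_one_left h]
      exact inv_mem (zpow_mem (mem_zpowers _) a)
    have h5 : y = 1 := Subgroup.disjoint_def.1 G1.ray hy h4
    rw [h5, one_mul] at h
    refine ⟨h5, ?_, h2⟩
    apply S.rho_injective hw.fin.zpow
    rw [map_zpow, h]
  have ind2 : ∀ y ∈ S.X (zpowers χ), ∀ y' ∈ S.X (zpowers χ), ∀ a b a' b' : ℤ,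
      y * S.rho w ^ a * S.rho w' ^ b = y' * S.rho w ^ a' * S.rho w' ^ b' →
      y = y' ∧ w ^ a = w ^ a' ∧ w' ^ b = w' ^ b' := by
    intro y hy y' hy' a b a' b' h
    have := ind (y / y') (div_mem hy hy') (a - a') (b - b') (by
      rw [zpow_sub, zpow_sub]
      calc y / y' * (S.rho w ^ a * (S.rho w ^ a')⁻¹) * (S.rho w' ^ b * (S.rho w' ^ b')⁻¹)
          = (y * S.rho w ^ a * S.rho w' ^ b) / (y' * S.rho w ^ a' * S.rho w' ^ b') := by
            simp only [div_eq_mul_inv, mul_inv]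
            ac_rfl
        _ = 1 := by rw [h, div_self'])
    refine ⟨div_eq_one.1 this.1, ?_, ?_⟩
    · have h2 := this.2.1
      rwa [zpow_sub, mul_inv_eq_one] at h2
    · have h2 := this.2.2
      rwa [zpow_sub, mul_inv_eq_one] at h2
  -- the combined twist
  have G5 : S.Good χ (w * w' ^ d) := by
    have key1 : ∀ j : ℤ, S.rho (w * w' ^ d) ^ j = 1 * S.rho w ^ j * S.rho w' ^ (d * j) := by
      intro j
      rw [map_mul, map_zpow, mul_zpow, one_mul, zpow_mul]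
    refine ⟨hχ, hw.fin.mul hw'.fin.zpow, ?_, ?_, ?_⟩
    · rw [Subgroup.disjoint_def]
      intro x hx hx'
      obtain ⟨j, rfl⟩ := mem_zpowers_iff.1 hx'
      obtain ⟨i, hi⟩ := mem_zpowers_iff.1 hx
      have hj : w ^ j = χ ^ i * w' ^ (-(d * j)) := by
        rw [hi, mul_zpow, zpow_neg, zpow_mul, mul_assoc, mul_inv_cancel, mul_one]
      have hram : q ∉ S.ram (χ ^ i * w' ^ (-(d * j))) := by
        intro h
        rcases S.ram_mul _ _ h with h | h
        · exact hqχ (S.ram_zpow χ i h)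
        · exact hq'q (hw'.ramq (S.ram_zpow w' _ h)).symm
      have h1 : w ^ j = 1 := by
        have hG := hw.good (hχ.zpow.mul hw'.fin.zpow) hram
        refine Subgroup.disjoint_def.1 hG.gal ?_ (zpow_mem (mem_zpowers w) j)
        rw [hj]
        exact mem_zpowers _
      have h2 : w' ^ (d * j) = 1 := by
        refine Subgroup.disjoint_def.1 G2.gal ?_ (zpow_mem (mem_zpowers w') _)
        rw [mul_zpow, h1, one_mul, ← zpow_mul] at hi
        rw [← hi]
        exact zpow_mem (mem_zpowers χ) i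
      rw [mul_zpow, h1, one_mul, ← zpow_mul, h2]
    · rw [Subgroup.disjoint_def]
      intro x hx hx'
      obtain ⟨j, rfl⟩ := mem_zpowers_iff.1 hx'
      have := ind2 _ hx 1 (one_mem _) 0 0 j (d * j) (by
        rw [zpow_zero, zpow_zero, mul_one, mul_one]
        exact key1 j)
      exact this.1
    · refine ⟨q * q', Nat.mul_pos hw.pr.pos hw'.pr.pos, S.ev (w * w' ^ d), ?_, rfl, ?_⟩
      · rw [map_mul, map_zpow]
        have hpos : 0 < q * q' := Nat.mul_pos hw.pr.pos hw'.pr.pos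
        exact mul_mem (S.RC_mono hpos (dvd_mul_right _ _) hw.rc)
          (zpow_mem (S.RC_mono hpos (dvd_mul_left _ _) hw'.rc) d)
      · exact Eventually.of_forall fun p hp => S.forall_zpowers.1 hp
  -- the element of `X (χ w w'^d)`
  obtain ⟨y5, hy5, z5, hz5, h5⟩ := Subgroup.mem_sup.1 (G5.two 1 hfX)
  obtain ⟨k0', rfl⟩ := mem_zpowers_iff.1 hz5
  set k0 : ℤ := -k0' with hk0
  have hy5' : y5 = g f * S.rho w ^ k0 * S.rho w' ^ (d * k0) := by
    rw [← h5, hk0, map_mul, mul_zpow, map_zpow, ← zpow_mul, mul_neg, zpow_neg, zpow_neg]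
    rw [mul_assoc, mul_assoc]
    rw [mul_mul_mul_comm]
    simp
  have e1 : χ * (w * w' ^ d) ^ (1 : ℤ) = χ * w' ^ d * w ^ (1 : ℤ) := by
    rw [zpow_one, zpow_one, mul_assoc, mul_comm w]
  have e2 : χ * (w * w' ^ d) ^ (1 : ℤ) = χ * w * w' ^ d := by
    rw [zpow_one, mul_assoc]
  -- first decomposition
  obtain ⟨z, hz, u, hu, hzu⟩ := Subgroup.mem_sup.1 (G3.one 1 (by rw [← e1]; exact hy5))
  obtain ⟨j, rfl⟩ := mem_zpowers_iff.1 hu
  obtain ⟨y, hy, v, hv, hyv⟩ := Subgroup.mem_sup.1 (G2.one d hz)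
  obtain ⟨i, rfl⟩ := mem_zpowers_iff.1 hv
  have D1 := ind2 _ hfX y hy k0 (d * k0) j i (by
    rw [← hy5', ← hzu, ← hyv]
    exact mul_right_comm _ _ _)
  have hzeq : z = g f * S.rho w' ^ (d * k0) := by
    rw [← hyv, ← D1.1]
    congr 1
    rw [← map_zpow, ← map_zpow, D1.2.2]
  -- second decomposition
  obtain ⟨z', hz', u', hu', hzu'⟩ := Subgroup.mem_sup.1 (G4.one d (by rw [← e2]; exact hy5))
  obtain ⟨i', rfl⟩ := mem_zpowers_iff.1 hu'
  obtain ⟨y', hy', v', hv', hyv'⟩ := Subgroup.mem_sup.1 (G1.one 1 (by rw [zpow_one]; exact hz'))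
  obtain ⟨j', rfl⟩ := mem_zpowers_iff.1 hv'
  have D2 := ind2 _ hfX y' hy' k0 (d * k0) j' i' (by
    rw [← hy5', ← hzu', ← hyv'])
  have hzeq' : z' = g f * S.rho w ^ k0 := by
    rw [← hyv', ← D2.1]
    congr 1
    rw [← map_zpow, ← map_zpow, D2.2.1]
  -- congruence for the exponents
  have hcong : (r ^ e : ℤ) ∣ k0 - k := by
    have h1 : S.rho (w ^ (k0 - k)) ∈ S.X (zpowers (χ * w ^ (1 : ℤ))) := by
      rw [zpow_one, map_zpow]
      have := div_mem hz' hk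
      rw [hzeq', mul_div_mul_left_eq_div, div_eq_mul_inv, ← zpow_sub] at this
      exact this
    have h2 := G1.three 1 (k0 - k) h1
    obtain ⟨m, hm⟩ := mem_zpowers_iff.1 h2
    rw [← zpow_mul, one_mul, hn] at hm
    have h3 : w ^ (k0 - k - ((r ^ e : ℕ) : ℤ) * m) = 1 := by
      rw [zpow_sub, ← hm, mul_inv_cancel]
    have h4 : ((r ^ e : ℕ) : ℤ) ∣ k0 - k - ((r ^ e : ℕ) : ℤ) * m :=
      (Int.natCast_dvd_natCast.2 hord).trans (orderOf_dvd_iff_zpow_eq_one.2 h3)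
    have h5 : ((r ^ e : ℕ) : ℤ) ∣ k0 - k := by
      have := dvd_add h4 (dvd_mul_right ((r ^ e : ℕ) : ℤ) m)
      simpa using this
    simpa using h5
  -- evaluation at `p`
  obtain ⟨-, M', hM', hM'T, -, hrep'⟩ := S.X_cyc (χ * w' ^ d) (fin_mul_zpow hχ hw'.fin d)
    {S.res p} (by simpa using ⟨S.res_prime p, ram3⟩)
  obtain ⟨f', hf', hfg', hval⟩ := hrep' z hz
  have hpM' : ¬ S.res p ∣ M' := hM'T _ (by simp)
  have hval1 : f' p = 1 := by
    apply hval p hpM'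
    rw [map_mul, map_zpow, Pi.mul_apply, Pi.pow_apply]
    exact hd
  have hbig : 0 < M * q' * M' := Nat.mul_pos (Nat.mul_pos hM hw'.pr.pos) hM'
  have hF : (f * S.ev w' ^ (d * k0)) / f' ∈ S.RC (M * q' * M') := by
    refine div_mem (mul_mem ?_ (zpow_mem ?_ _)) ?_
    · exact S.RC_mono hbig (by rw [mul_assoc]; exact dvd_mul_right _ _) hf
    · exact S.RC_mono hbig (Dvd.dvd.mul_right (dvd_mul_left _ _) _) hw'.rc
    · exact S.RC_mono hbig (dvd_mul_left _ _) hf'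
  have hF1 : ∀ᶠ p in cofinite, ((f * S.ev w' ^ (d * k0)) / f') p = 1 := by
    apply g_eq_one.1
    rw [map_div, map_mul, map_zpow, hfg', hzeq]
    exact div_self' _
  have hpbig : ¬ S.res p ∣ M * q' * M' := by
    intro h
    rcases (Nat.Prime.dvd_mul (S.res_prime p)).1 h with h | h
    · rcases (Nat.Prime.dvd_mul (S.res_prime p)).1 h with h | h
      · exact hp h
      · exact hq'p ((Nat.prime_dvd_prime_iff_eq (S.res_prime p) hw'.pr).1 h).symm
    · exact hpM' h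
  have hfinal := S.RC_sep _ hbig _ hF hF1 p hpbig
  rw [Pi.div_apply, Pi.mul_apply, Pi.pow_apply, hval1, div_one, zpow_mul] at hfinal
  have hd' : S.ev w' p ^ d = (S.ev χ p)⁻¹ := eq_inv_of_mul_eq_one_right hd
  rw [hd', inv_zpow, mul_inv_eq_one] at hfinal
  rw [hfinal]
  obtain ⟨m, hm⟩ := hcong
  have : k0 = k + ((r ^ e : ℕ) : ℤ) * m := by push_cast; linarith
  rw [this, zpow_add, zpow_mul, zpow_natCast, hχp, one_zpow, mul_one]


/-- Reciprocity for characters of prime power order. -/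
theorem recip_prime_pow {χ : Γ} (hχ : IsOfFinOrder χ) {r e : ℕ} (hr : r.Prime)
    (hn : orderOf χ = r ^ e) (T : Finset ℕ) (hT : ∀ l ∈ T, l.Prime ∧ l ∉ S.ram χ) :
    ∃ M : ℕ, 0 < M ∧ (∀ l ∈ T, ¬ l ∣ M) ∧ (∀ l ∈ S.ram χ, l ∣ M) ∧ S.ev χ ∈ S.RC M := by
  classical
  obtain ⟨hcard, M, hM, hMT, hram, hrep⟩ := S.X_cyc χ hχ T hT
  refine ⟨M, hM, hMT, hram, ?_⟩
  rcases isEmpty_or_nonempty P with hP | ⟨⟨p0⟩⟩
  · have : S.ev χ = 1 := Subsingleton.elim _ _
    rw [this]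
    exact one_mem _
  obtain ⟨q, w, hqT, -, hw, hord⟩ := S.exists_cyc r e hr M.primeFactors p0
  have hqM : ¬ q ∣ M := fun h => hqT (Nat.mem_primeFactors.2 ⟨hw.pr, h, hM.ne'⟩)
  have hord' : r ^ e ∣ orderOf w := by
    refine hord.trans ?_
    have := orderOf_map_dvd ((Pi.evalMonoidHom (fun _ : P => ℂˣ) p0).comp S.ev) w
    exact this
  have hqχ : q ∉ S.ram χ := fun h => hqM (hram q h)
  have G1 : S.Good χ w := hw.good hχ hqχ
  -- exponents
  have hex : ∀ y : S.X (zpowers χ), ∃ k : ℤ, (y : Q P) * S.rho w ^ k ∈ S.X (zpowers (χ * w)) := by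
    intro y
    obtain ⟨y5, hy5, z5, hz5, h5⟩ := Subgroup.mem_sup.1 (G1.two 1 y.2)
    obtain ⟨k, rfl⟩ := mem_zpowers_iff.1 hz5
    refine ⟨-k, ?_⟩
    rw [← h5, mul_assoc, zpow_neg, mul_inv_cancel, mul_one]
    rw [zpow_one] at hy5
    exact hy5
  choose κ hκ using hex
  have hex' : ∀ y : S.X (zpowers χ), ∃ f : P → ℂˣ, f ∈ S.RC M ∧ g f = y := by
    intro y
    obtain ⟨f, hf, hfg, -⟩ := hrep y y.2
    exact ⟨f, hf, hfg⟩
  choose F hF hFg using hex'
  have hkey : ∀ y : S.X (zpowers χ), ∀ p, ¬ S.res p ∣ M → F y p = S.ev χ p ^ κ y := by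
    intro y p hp
    exact key hχ hr hn hM hram hw hqM hord' (hF y) (by rw [hFg]; exact y.2)
      (by rw [hFg]; exact hκ y) p hp
  have hχp : ∀ p, S.ev χ p ^ (r ^ e) = 1 := by
    intro p
    rw [← Pi.pow_apply, ← map_pow, ← hn, pow_orderOf_eq_one, map_one, Pi.one_apply]
  have hcongr : ∀ (a b : ℤ), (a : ZMod (r ^ e)) = b → ∀ p, S.ev χ p ^ a = S.ev χ p ^ b := by
    intro a b hab p
    obtain ⟨m, hm⟩ := (ZMod.intCast_eq_intCast_iff_dvd_sub _ _ _).1 hab
    have : b = a + ((r ^ e : ℕ) : ℤ) * m := by linarith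
    rw [this, zpow_add, zpow_mul, zpow_natCast, hχp, one_zpow, mul_one]
  have hfinX : Finite (S.X (zpowers χ)) := by
    have : Finite (zpowers χ) := hχ.finite_zpowers
    exact S.X_finite _
  have hne : NeZero (r ^ e) := ⟨(pow_pos hr.pos e).ne'⟩
  have hev : ∀ᶠ p in cofinite, ¬ S.res p ∣ M := by
    rw [eventually_cofinite]
    simpa using S.res_fin M hM
  have hinj : Function.Injective (fun y : S.X (zpowers χ) => (κ y : ZMod (r ^ e))) := by
    intro y y' h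
    apply Subtype.ext
    rw [← hFg y, ← hFg y', g_eq]
    filter_upwards [hev] with p hp
    rw [hkey y p hp, hkey y' p hp]
    exact hcongr _ _ h p
  have hbij : Function.Bijective (fun y : S.X (zpowers χ) => (κ y : ZMod (r ^ e))) := by
    rw [Nat.bijective_iff_injective_and_card]
    refine ⟨hinj, ?_⟩
    rw [hcard, hn, Nat.card_zmod]
  obtain ⟨y, hy⟩ := hbij.2 ((1 : ℤ) : ZMod (r ^ e))
  refine S.RC_congr M (F y) _ (hF y) fun p hp => ?_
  rw [hkey y p hp, hcongr _ _ hy p, zpow_one]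

/-- Reciprocity for characters of finite order. -/
theorem recip {χ : Γ} (hχ : IsOfFinOrder χ) (T : Finset ℕ) (hT : ∀ l ∈ T, l.Prime ∧ l ∉ S.ram χ) :
    ∃ M : ℕ, 0 < M ∧ (∀ l ∈ T, ¬ l ∣ M) ∧ S.ev χ ∈ S.RC M := by
  classical
  suffices H : ∀ n : ℕ, ∀ χ : Γ, IsOfFinOrder χ → orderOf χ = n → (∀ l ∈ T, l.Prime ∧ l ∉ S.ram χ) →
      ∃ M : ℕ, 0 < M ∧ (∀ l ∈ T, ¬ l ∣ M) ∧ S.ev χ ∈ S.RC M from H _ χ hχ rfl hT
  intro n
  induction n using Nat.recOnPosPrimePosCoprime with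
  | prime_pow p n hp hn =>
    intro χ hχ ho hT
    obtain ⟨M, h1, h2, -, h3⟩ := recip_prime_pow hχ hp ho T hT
    exact ⟨M, h1, h2, h3⟩
  | zero =>
    intro χ hχ ho
    exact absurd ho hχ.orderOf_pos.ne'
  | one =>
    intro χ hχ ho _
    rw [orderOf_eq_one_iff] at ho
    refine ⟨1, one_pos, fun l hl h => ?_, ?_⟩
    · exact (hT l hl).1.one_lt.ne' (Nat.dvd_one.1 h)
    · rw [ho, map_one]
      exact one_mem _
  | coprime a b ha hb hab iha ihb =>
    intro χ hχ ho hT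
    have hχa : orderOf (χ ^ b) = a := by
      rw [hχ.orderOf_pow, ho, Nat.gcd_eq_right (dvd_mul_left b a), Nat.mul_div_cancel _ (by omega)]
    have hχb : orderOf (χ ^ a) = b := by
      rw [hχ.orderOf_pow, ho, Nat.gcd_eq_right (dvd_mul_right a b),
        Nat.mul_div_cancel_left _ (by omega)]
    obtain ⟨M, hM, hMT, hMr⟩ := iha (χ ^ b) hχ.pow hχa
      fun l hl => ⟨(hT l hl).1, fun h => (hT l hl).2 (S.ram_pow χ b h)⟩
    obtain ⟨M', hM', hMT', hMr'⟩ := ihb (χ ^ a) hχ.pow hχb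
      fun l hl => ⟨(hT l hl).1, fun h => (hT l hl).2 (S.ram_pow χ a h)⟩
    have hpos := Nat.mul_pos hM hM'
    refine ⟨M * M', hpos, fun l hl h => ?_, ?_⟩
    · rcases (Nat.Prime.dvd_mul (hT l hl).1).1 h with h | h
      · exact hMT l hl h
      · exact hMT' l hl h
    · have hbez : χ = (χ ^ a) ^ (Nat.gcdA a b) * (χ ^ b) ^ (Nat.gcdB a b) := by
        have := Nat.gcd_eq_gcd_ab a b
        rw [Nat.Coprime.gcd_eq_one hab] at this
        rw [← zpow_natCast, ← zpow_natCast, ← zpow_mul, ← zpow_mul, ← zpow_add, ← this]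
        simp
      rw [hbez, map_mul, map_zpow, map_zpow]
      exact mul_mem (zpow_mem (S.RC_mono hpos (dvd_mul_left _ _) hMr') _)
        (zpow_mem (S.RC_mono hpos (dvd_mul_right _ _) hMr) _)

end RecSys

end Vale.Agent.P022.H867
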