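import Vale.Agent.P022.H867.Gal
import Vale.Agent.P022.H867.Rec
import Vale.Agent.P022.Iface
import Vale.Agent.P022.H116.Spec
import Vale.Agent.P022.H191.Stmt
import Vale.Agent.P022.H374.Frob

/-! # Concrete Galois characters and ray class characters of a number field -/

namespace Vale.Agent.P022.H867

open NumberField Pointwise UniqueFactorizationMonoid
open Vale.Agent.P022.CFT (evI IsRC Nrm)

noncomputable section

/-- The algebraic closure. -/
abbrev Kb (K : Type) [Field K] : Type := AlgebraicClosure K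

/-- The absolute Galois group. -/
abbrev GK (K : Type) [Field K] : Type := AlgebraicClosure K ≃ₐ[K] AlgebraicClosure K

/-- The nonzero primes. -/
abbrev PK (K : Type) [Field K] [NumberField K] : Type :=
  {𝔭 : Ideal (𝓞 K) // 𝔭.IsPrime ∧ 𝔭 ≠ ⊥}

section basic

variable (K : Type) [Field K] [NumberField K]

/-- The characters with open kernel. -/
def Chars : Subgroup (GK K →* ℂˣ) where
  carrier := {χ | IsOpen (χ.ker : Set (GK K))}
  one_mem' := by
    show IsOpen (((1 : GK K →* ℂˣ).ker : Subgroup (GK K)) : Set (GK K))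
    rw [MonoidHom.ker_one]
    exact isOpen_univ
  mul_mem' := by
    intro χ φ hχ hφ
    have hle : χ.ker ⊓ φ.ker ≤ (χ * φ).ker := by
      intro g hg
      rw [MonoidHom.mem_ker, MonoidHom.mul_apply, MonoidHom.mem_ker.1 hg.1,
        MonoidHom.mem_ker.1 hg.2, one_mul]
    exact Subgroup.isOpen_mono hle (IsOpen.inter hχ hφ)
  inv_mem' := by
    intro χ hχ
    have hle : χ.ker ≤ (χ⁻¹).ker := by
      intro g hg
      rw [MonoidHom.mem_ker, MonoidHom.inv_apply, MonoidHom.mem_ker.1 hg, inv_one]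
    exact Subgroup.isOpen_mono hle hχ

theorem isOpen_ker (χ : Chars K) : IsOpen ((χ.1.ker : Subgroup (GK K)) : Set (GK K)) := χ.2

variable {K} in
/-- An open normal subgroup is the group of a finite Galois extension. -/
theorem exists_field (H : Subgroup (GK K)) (hH : IsOpen (H : Set (GK K))) (hn : H.Normal) :
    ∃ L : IntermediateField K (Kb K), FiniteDimensional K L ∧ IsGalois K L ∧
      L.fixingSubgroup = H := by
  let C : ClosedSubgroup (GK K) := ⟨H, Subgroup.isClosed_of_isOpen H hH⟩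
  have h1 : (IntermediateField.fixedField H).fixingSubgroup = H :=
    InfiniteGalois.fixingSubgroup_fixedField C
  refine ⟨IntermediateField.fixedField H, ?_, ?_, h1⟩
  · rw [← InfiniteGalois.isOpen_iff_finite, h1]
    exact hH
  · rw [← InfiniteGalois.normal_iff_isGalois, h1]
    exact hn

/-- The residue characteristic. -/
def res (p : PK K) : ℕ := ringChar (𝓞 K ⧸ p.1)

variable {K}

theorem res_dvd (p : PK K) (M : ℕ) : res K p ∣ M ↔ (M : 𝓞 K) ∈ p.1 := by
  rw [res, ← ringChar.spec, ← map_natCast (Ideal.Quotient.mk p.1), Ideal.Quotient.eq_zero_iff_mem]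

theorem res_prime (p : PK K) : (res K p).Prime := by
  have hp := p.2.1
  have hfin : Finite (𝓞 K ⧸ p.1) := Ideal.finiteQuotientOfFreeOfNeBot p.1 p.2.2
  have : Fact (ringChar (𝓞 K ⧸ p.1)).Prime := by
    rcases CharP.char_is_prime_or_zero (𝓞 K ⧸ p.1) (ringChar (𝓞 K ⧸ p.1)) with h | h
    · exact ⟨h⟩
    · exfalso
      have : CharP (𝓞 K ⧸ p.1) 0 := by rw [← h]; infer_instance
      have hc := CharP.charP_to_charZero (𝓞 K ⧸ p.1)
      have : Infinite (𝓞 K ⧸ p.1) := inferInstance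
      exact not_finite (𝓞 K ⧸ p.1)
  exact this.out

theorem res_fin (M : ℕ) (hM : 0 < M) : {p : PK K | res K p ∣ M}.Finite := by
  have h0 : (Ideal.span {(M : 𝓞 K)} : Ideal (𝓞 K)) ≠ 0 := by
    rw [Ideal.zero_eq_bot, Ne, Ideal.span_singleton_eq_bot]
    exact_mod_cast hM.ne'
  have h1 := Ideal.finite_factors h0
  refine Set.Finite.of_injOn (f := fun p : PK K => (⟨p.1, p.2.1, p.2.2⟩ :
    IsDedekindDomain.HeightOneSpectrum (𝓞 K))) ?_ ?_ h1
  · intro p hp
    show p.1 ∣ Ideal.span {(M : 𝓞 K)}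
    rw [Ideal.dvd_span_singleton]
    exact (res_dvd p M).1 hp
  · intro p _ q _ h
    apply Subtype.ext
    exact congrArg IsDedekindDomain.HeightOneSpectrum.asIdeal h

/-- Extension of a function on primes to all ideals. -/
def ext (f : PK K → ℂˣ) (𝔭 : Ideal (𝓞 K)) : ℂˣ :=
  open Classical in if h : 𝔭.IsPrime ∧ 𝔭 ≠ ⊥ then f ⟨𝔭, h⟩ else 1

theorem ext_apply (f : PK K → ℂˣ) (p : PK K) : ext f p.1 = f p := by
  rw [ext, dif_pos p.2]

theorem mem_factors {I 𝔭 : Ideal (𝓞 K)} (h : 𝔭 ∈ normalizedFactors I) :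
    (𝔭.IsPrime ∧ 𝔭 ≠ ⊥) ∧ I ≤ 𝔭 := by
  have h1 := prime_of_normalized_factor 𝔭 h
  exact ⟨⟨Ideal.isPrime_of_prime h1, h1.ne_zero⟩, Ideal.le_of_dvd (dvd_of_mem_normalizedFactors h)⟩

theorem evI_congr {A : Type*} [CommGroup A] {Y Z : Ideal (𝓞 K) → A} {I : Ideal (𝓞 K)}
    (h : ∀ 𝔭 : Ideal (𝓞 K), 𝔭.IsPrime → 𝔭 ≠ ⊥ → I ≤ 𝔭 → Y 𝔭 = Z 𝔭) : evI Y I = evI Z I := by
  unfold evI
  congr 1
  apply Multiset.map_congr rfl
  intro 𝔭 h𝔭
  have := mem_factors h𝔭
  exact h 𝔭 this.1.1 this.1.2 this.2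

theorem evI_mul {A : Type*} [CommGroup A] (Y Z : Ideal (𝓞 K) → A) (I : Ideal (𝓞 K)) :
    evI (Y * Z) I = evI Y I * evI Z I := by
  unfold evI
  rw [← Multiset.prod_map_mul]
  rfl

theorem evI_one {A : Type*} [CommGroup A] (I : Ideal (𝓞 K)) :
    evI (1 : Ideal (𝓞 K) → A) I = 1 := by
  unfold evI
  simp

theorem ext_mul (f g : PK K → ℂˣ) : ext (f * g) = ext f * ext g := by
  funext 𝔭
  by_cases h : 𝔭.IsPrime ∧ 𝔭 ≠ ⊥
  · simp [ext, h]
  · simp [ext, h]

theorem ext_one : ext (1 : PK K → ℂˣ) = 1 := by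
  funext 𝔭
  by_cases h : 𝔭.IsPrime ∧ 𝔭 ≠ ⊥
  · simp [ext, h]
  · simp [ext, h]

variable (K) in
/-- Ray class characters modulo `M`. -/
def RCK (M : ℕ) : Subgroup (PK K → ℂˣ) where
  carrier := {f | IsRC M (ext f)}
  one_mem' := by
    intro α _ _ _
    rw [ext_one, evI_one]
  mul_mem' := by
    intro f g hf hg α h0 h1 h2
    rw [ext_mul, evI_mul, hf α h0 h1 h2, hg α h0 h1 h2, one_mul]
  inv_mem' := by
    intro f hf α h0 h1 h2
    have h3 : evI (ext f⁻¹) (Ideal.span {α}) * evI (ext f) (Ideal.span {α}) = 1 := by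
      rw [← evI_mul, ← ext_mul, inv_mul_cancel, ext_one, evI_one]
    rw [hf α h0 h1 h2, mul_one] at h3
    exact h3

theorem mem_RCK {M : ℕ} {f : PK K → ℂˣ} : f ∈ RCK K M ↔ IsRC M (ext f) := Iff.rfl

theorem not_mem_of_sub_one_mem {M : ℕ} {α : 𝓞 K} (h : α - 1 ∈ idl K M) {𝔭 : Ideal (𝓞 K)}
    (hp : 𝔭.IsPrime) (hle : Ideal.span {α} ≤ 𝔭) : (M : 𝓞 K) ∉ 𝔭 := by
  intro hM
  have h1 : idl K M ≤ 𝔭 := by
    rw [idl, Ideal.span_singleton_le_iff_mem]
    exact_mod_cast hM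
  have h2 : α ∈ 𝔭 := hle (Ideal.mem_span_singleton_self α)
  have h3 := 𝔭.sub_mem h2 (h1 h)
  rw [sub_sub_cancel] at h3
  exact hp.ne_top ((Ideal.eq_top_iff_one _).2 h3)

theorem RC_congr (M : ℕ) (f g : PK K → ℂˣ) (hf : f ∈ RCK K M)
    (h : ∀ p, ¬ res K p ∣ M → f p = g p) : g ∈ RCK K M := by
  intro α h0 h1 h2
  rw [← hf α h0 h1 h2]
  apply evI_congr
  intro 𝔭 h3 h4 h5
  have h6 := not_mem_of_sub_one_mem h1 h3 h5
  rw [← res_dvd ⟨𝔭, h3, h4⟩ M] at h6
  have := h _ h6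
  rw [← ext_apply f, ← ext_apply g] at this
  exact this.symm

theorem RC_mono {M M' : ℕ} (h : M ∣ M') : RCK K M ≤ RCK K M' := by
  intro f hf α h0 h1 h2
  refine hf α h0 ?_ h2
  have : idl K M' ≤ idl K M := by
    rw [idl, idl, Ideal.span_singleton_le_span_singleton]
    obtain ⟨c, rfl⟩ := h
    push_cast
    exact dvd_mul_right _ _
  exact this h1

end basic

section frobenius

variable {K : Type} [Field K] [NumberField K]

theorem exists_over (p : PK K) : ∃ Q : Ideal (𝓞 (Kb K)), Q.IsPrime ∧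
    Q.comap (algebraMap (𝓞 K) (𝓞 (Kb K))) = p.1 := by
  have hint : Algebra.IsIntegral (𝓞 K) (𝓞 (Kb K)) := by
    constructor
    intro x
    exact (RingOfIntegers.isIntegral x).tower_top
  have hinj : Function.Injective (algebraMap (𝓞 K) (𝓞 (Kb K))) := by
    intro a b hab
    apply RingOfIntegers.ext
    apply (algebraMap K (Kb K)).injective
    exact congrArg (fun x : 𝓞 (Kb K) => (x : Kb K)) hab
  have := p.2.1
  obtain ⟨Q, -, hQ, hQP⟩ := Ideal.exists_ideal_over_prime_of_isIntegral (R := 𝓞 K)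
    (S := 𝓞 (Kb K)) p.1 ⊥ (by rw [Ideal.comap_bot_of_injective _ hinj]; exact bot_le)
  exact ⟨Q, hQ, hQP⟩

/-- A chosen prime above `p`. -/
def pab (p : PK K) : Ideal (𝓞 (Kb K)) := (exists_over p).choose

theorem pab_prime (p : PK K) : (pab p).IsPrime := (exists_over p).choose_spec.1

theorem pab_comap (p : PK K) : (pab p).comap (algebraMap (𝓞 K) (𝓞 (Kb K))) = p.1 :=
  (exists_over p).choose_spec.2

theorem exists_frobK (p : PK K) : ∃ g : GK K, ∀ x : 𝓞 (Kb K),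
    g • x - x ^ (Ideal.absNorm p.1) ∈ pab p :=
  exists_frob (pab p) (pab_prime p) p.1 p.2.2 (pab_comap p)

/-- A chosen Frobenius element. -/
def frob (p : PK K) : GK K := (exists_frobK p).choose

theorem frob_spec (p : PK K) (x : 𝓞 (Kb K)) :
    frob p • x - x ^ (Ideal.absNorm p.1) ∈ pab p := (exists_frobK p).choose_spec x

variable (K) in
/-- The values of characters at Frobenius elements. -/
def evK : Chars K →* (PK K → ℂˣ) where
  toFun χ p := χ.1 (frob p)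
  map_one' := rfl
  map_mul' _ _ := rfl

theorem evK_apply (χ : Chars K) (p : PK K) : evK K χ p = χ.1 (frob p) := rfl

/-- The rational primes over which `χ` ramifies. -/
def ramK (χ : GK K →* ℂˣ) : Set ℕ := {l | l.Prime ∧ ∃ Q : Ideal (𝓞 (Kb K)), Q.IsPrime ∧
  (l : 𝓞 (Kb K)) ∈ Q ∧ ∃ g : GK K, (∀ x : 𝓞 (Kb K), g • x - x ∈ Q) ∧ χ g ≠ 1}

theorem ram_one : ramK (1 : GK K →* ℂˣ) = ∅ := by
  ext l
  simp [ramK]

theorem ram_mul (χ φ : GK K →* ℂˣ) : ramK (χ * φ) ⊆ ramK χ ∪ ramK φ := by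
  rintro l ⟨hl, Q, hQ, hlQ, g, hg, h⟩
  by_cases h1 : χ g = 1
  · right
    refine ⟨hl, Q, hQ, hlQ, g, hg, fun h2 => h ?_⟩
    rw [MonoidHom.mul_apply, h1, h2, one_mul]
  · left
    exact ⟨hl, Q, hQ, hlQ, g, hg, h1⟩

theorem ram_inv (χ : GK K →* ℂˣ) : ramK χ⁻¹ ⊆ ramK χ := by
  rintro l ⟨hl, Q, hQ, hlQ, g, hg, h⟩
  refine ⟨hl, Q, hQ, hlQ, g, hg, fun h2 => h ?_⟩
  rw [MonoidHom.inv_apply, h2, inv_one]

end frobenius

section field

variable {K : Type} [Field K] [NumberField K] (L : IntermediateField K (Kb K))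
  [FiniteDimensional K L] [IsGalois K L]

instance numL : NumberField L where
  to_charZero := inferInstance
  to_finiteDimensional := Module.Finite.trans (R := ℚ) K L

/-- Restriction to `L`. -/
abbrev rest : GK K →* (L ≃ₐ[K] L) := AlgEquiv.restrictNormalHom L

theorem rest_apply (g : GK K) (x : L) : ((rest L g x : L) : Kb K) = g x :=
  AlgEquiv.restrictNormal_commutes g L x

theorem rest_surj : Function.Surjective (rest L) :=
  AlgEquiv.restrictNormalHom_surjective (Kb K)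

theorem rest_ker : (rest L).ker = L.fixingSubgroup := IntermediateField.restrictNormalHom_ker L

theorem isFrob_rest (p : PK K) : IsFrob K L p.1 (rest L (frob p)) := by
  have := pab_prime p
  refine ⟨(pab p).comap (algebraMap (𝓞 L) (𝓞 (Kb K))), Ideal.comap_isPrime _ _, ?_, ?_⟩
  · rw [Ideal.comap_comap, ← pab_comap p]
    rfl
  · intro x y hy
    rw [Ideal.mem_comap, map_sub, map_pow]
    have h1 : algebraMap (𝓞 L) (𝓞 (Kb K)) y = frob p • (algebraMap (𝓞 L) (𝓞 (Kb K)) x) := by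
      apply RingOfIntegers.ext
      rw [coe_smul]
      show ((y : L) : Kb K) = frob p ((x : L) : Kb K)
      rw [hy, rest_apply]
    rw [h1]
    exact frob_spec p _

theorem unram_of (l : ℕ) (h : ∀ Q : Ideal (𝓞 (Kb K)), Q.IsPrime → (l : 𝓞 (Kb K)) ∈ Q →
    ∀ g : GK K, (∀ x : 𝓞 (Kb K), g • x - x ∈ Q) → rest L g = 1) (𝔭 : Ideal (𝓞 K))
    (hl : (l : 𝓞 K) ∈ 𝔭) : Unram K L 𝔭 := by
  intro P hP hP𝔭 σ hσ
  obtain ⟨Q, hQ, hQP, g, hg, hgσ⟩ := inertia_lift (Ω := Kb K) P hP σ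
    (fun x => hσ x (σ • x) rfl)
  have hlQ : (l : 𝓞 (Kb K)) ∈ Q := by
    rw [← hP𝔭, ← hQP, Ideal.mem_comap, Ideal.mem_comap, map_natCast, map_natCast] at hl
    exact hl
  have h1 := h Q hQ hlQ g hg
  ext x
  have h2 := hgσ x
  have h3 : (algebraMap L (Kb K)) (σ x) = ((σ x : L) : Kb K) := rfl
  have h4 : g (algebraMap L (Kb K) x) = ((rest L g x : L) : Kb K) := (rest_apply L g x).symm
  rw [h4, h1] at h2
  exact h2.symm

theorem not_unram_of {Q : Ideal (𝓞 (Kb K))} (hQ : Q.IsPrime) {g : GK K}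
    (hg : ∀ x : 𝓞 (Kb K), g • x - x ∈ Q) (h : rest L g ≠ 1) :
    ¬ Unram K L (Q.comap (algebraMap (𝓞 K) (𝓞 (Kb K)))) := by
  intro hU
  apply h
  apply hU (Q.comap (algebraMap (𝓞 L) (𝓞 (Kb K)))) (Ideal.comap_isPrime _ _)
  · rw [Ideal.comap_comap]
    rfl
  · intro x y hy
    rw [Ideal.mem_comap, map_sub]
    have h1 : algebraMap (𝓞 L) (𝓞 (Kb K)) y = g • (algebraMap (𝓞 L) (𝓞 (Kb K)) x) := by
      apply RingOfIntegers.ext
      rw [coe_smul]
      show ((y : L) : Kb K) = g ((x : L) : Kb K)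
      rw [hy, rest_apply]
    rw [h1]
    exact hg _

end field

end

end Vale.Agent.P022.H867
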