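import Vale.Agent.P022.H867.Inst

/-! # First inequality, second inequality and Bauer for the concrete characters -/

namespace Vale.Agent.P022.H867

open NumberField Pointwise UniqueFactorizationMonoid
open Vale.Agent.P022.CFT (evI IsRC Nrm)

noncomputable section

section field

variable {K : Type} [Field K] [NumberField K] (L : IntermediateField K (Kb K))
  [FiniteDimensional K L] [IsGalois K L]

theorem card_gal : Nat.card (L ≃ₐ[K] L) = Module.finrank K L :=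
  IsGalois.card_aut_eq_finrank K L

/-- A character trivial on the group of `L` factors through the Galois group of `L`. -/
theorem exists_theta (χ : GK K →* ℂˣ) (h : L.fixingSubgroup ≤ χ.ker) :
    ∃ θ : (L ≃ₐ[K] L) →* ℂˣ, ∀ g, θ (rest L g) = χ g := by
  let θ := (rest L).liftOfSurjective (rest_surj L) ⟨χ, by rw [rest_ker]; exact h⟩
  exact ⟨θ, fun g => MonoidHom.liftOfRightInverse_comp_apply _ _ _ _ _⟩

theorem theta_inj (χ : GK K →* ℂˣ) (h : L.fixingSubgroup = χ.ker) {θ : (L ≃ₐ[K] L) →* ℂˣ}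
    (hθ : ∀ g, θ (rest L g) = χ g) : Function.Injective θ := by
  rw [injective_iff_map_eq_one]
  intro a ha
  obtain ⟨g, rfl⟩ := rest_surj L a
  rw [hθ] at ha
  have : g ∈ (rest L).ker := by rw [rest_ker, h]; exact ha
  exact this

theorem exists_gen (χ : GK K →* ℂˣ) (h : L.fixingSubgroup = χ.ker) :
    ∃ σ : L ≃ₐ[K] L, ∀ τ, τ ∈ Subgroup.zpowers σ := by
  obtain ⟨θ, hθ⟩ := exists_theta L χ h.le
  have hinj := theta_inj L χ h hθ
  have : IsCyclic (L ≃ₐ[K] L) := by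
    apply isCyclic_of_injective_ringHom ((Units.coeHom ℂ).comp θ)
    exact (Units.val_injective).comp hinj
  exact IsCyclic.exists_generator

theorem comm_of_inj {ι : Type*} (χ : ι → GK K →* ℂˣ) (h : ∀ g, (∀ i, χ i g = 1) → g ∈ L.fixingSubgroup)
    (σ τ : L ≃ₐ[K] L) : σ * τ = τ * σ := by
  obtain ⟨g, rfl⟩ := rest_surj L σ
  obtain ⟨g', rfl⟩ := rest_surj L τ
  have h1 : g * g' * (g' * g)⁻¹ ∈ (rest L).ker := by
    rw [rest_ker]
    apply h
    intro i
    rw [map_mul, map_inv, map_mul, map_mul, mul_comm (χ i g'), mul_inv_cancel]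
  rw [MonoidHom.mem_ker, map_mul, map_inv, mul_inv_eq_one, map_mul, map_mul] at h1
  exact h1

end field

section first

variable {K : Type} [Field K] [NumberField K]

theorem pow_card_eq_one (L : IntermediateField K (Kb K)) [FiniteDimensional K L] [IsGalois K L]
    (χ : GK K →* ℂˣ) (h : L.fixingSubgroup ≤ χ.ker) : χ ^ Module.finrank K L = 1 := by
  obtain ⟨θ, hθ⟩ := exists_theta L χ h
  ext g
  rw [MonoidHom.pow_apply, ← hθ, ← map_pow, ← card_gal, pow_card_eq_one', map_one]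
  rfl

theorem isOfFinOrder (χ : Chars K) : IsOfFinOrder χ := by
  obtain ⟨L, h1, h2, h3⟩ := exists_field χ.1.ker (isOpen_ker K χ) inferInstance
  rw [isOfFinOrder_iff_pow_eq_one]
  refine ⟨Module.finrank K L, Module.finrank_pos, ?_⟩
  apply Subtype.ext
  exact pow_card_eq_one L χ.1 h3.le

/-- Restriction of functions on ideals to nonzero primes. -/
def toP : (Ideal (𝓞 K) → ℂˣ) →* (PK K → ℂˣ) where
  toFun Y p := Y p.1
  map_one' := rfl
  map_mul' _ _ := rfl

theorem ext_toP {Y : Ideal (𝓞 K) → ℂˣ} {M : ℕ} (hY : Nrm M Y) : ext (toP Y) = Y := by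
  funext 𝔭
  by_cases h : 𝔭.IsPrime ∧ 𝔭 ≠ ⊥
  · rw [ext, dif_pos h]
    rfl
  · rw [ext, dif_neg h]
    exact (hY 𝔭 (fun h' => h ⟨h'.1, h'.2.1⟩)).symm

theorem first (hFI : CFT.FI_statement) (ψ : Chars K) (T : Finset ℕ)
    (hT : ∀ l ∈ T, l.Prime ∧ l ∉ ramK ψ.1) :
    ∃ M : ℕ, 0 < M ∧ (∀ l ∈ T, ¬ l ∣ M) ∧ (∀ l ∈ ramK ψ.1, l ∣ M) ∧
    ∃ s : Finset (PK K → ℂˣ), orderOf ψ ≤ s.card ∧ ∀ f ∈ s, f ∈ RCK K M ∧
      (∀ p, res K p ∣ M → f p = 1) ∧ ∀ p, ¬ res K p ∣ M → evK K ψ p = 1 → f p = 1 := by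
  classical
  obtain ⟨L, h1, h2, h3⟩ := exists_field ψ.1.ker (isOpen_ker K ψ) inferInstance
  obtain ⟨σ, hσ⟩ := exists_gen L ψ.1 h3
  obtain ⟨θ, hθ⟩ := exists_theta L ψ.1 h3.le
  have hinj := theta_inj L ψ.1 h3 hθ
  have hrest : ∀ g, ψ.1 g = 1 ↔ rest L g = 1 := by
    intro g
    rw [← hθ, map_eq_one_iff θ hinj]
  obtain ⟨M, hM, hMT, hMr, X, hXf, hXc, hX⟩ := hFI K L σ hσ T (by
    intro l hl hlp 𝔭 _ hl𝔭
    refine unram_of L l ?_ 𝔭 hl𝔭
    intro Q hQ hlQ g hg
    by_contra hne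
    exact (hT l hl).2 ⟨hlp, Q, hQ, hlQ, g, hg, fun h => hne ((hrest g).1 h)⟩)
  refine ⟨M, hM, fun l hl => hMT l hl (hT l hl).1, ?_, ?_⟩
  · rintro l ⟨hl, Q, hQ, hlQ, g, hg, hne⟩
    have hnu := not_unram_of L hQ hg (fun h => hne ((hrest g).2 h))
    have hl' : (l : 𝓞 K) ∈ Q.comap (algebraMap (𝓞 K) (𝓞 (Kb K))) := by
      rw [Ideal.mem_comap, map_natCast]
      exact hlQ
    have hp : (Q.comap (algebraMap (𝓞 K) (𝓞 (Kb K)))).IsPrime := Ideal.comap_isPrime _ _
    have hne0 : Q.comap (algebraMap (𝓞 K) (𝓞 (Kb K))) ≠ ⊥ := by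
      intro h0
      rw [h0, Ideal.mem_bot] at hl'
      exact hl.ne_zero (by exact_mod_cast hl')
    have hM' := hMr _ hp hne0 hnu
    by_contra hcon
    have hc : Nat.Coprime l M := (Nat.Prime.coprime_iff_not_dvd hl).2 hcon
    have hb := Nat.isCoprime_iff_coprime.2 hc
    obtain ⟨a, b, hab⟩ := hb
    apply hp.ne_top
    rw [Ideal.eq_top_iff_one]
    have : (1 : 𝓞 K) = (a : 𝓞 K) * (l : 𝓞 K) + (b : 𝓞 K) * (M : 𝓞 K) := by
      exact_mod_cast (congrArg (fun z : ℤ => (z : 𝓞 K)) hab).symm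
    rw [this]
    exact Ideal.add_mem _ (Ideal.mul_mem_left _ _ hl') (Ideal.mul_mem_left _ _ hM')
  · have hXfin : (X : Set (Ideal (𝓞 K) → ℂˣ)).Finite := Set.toFinite _
    have hinjP : Set.InjOn (toP (K := K)) (X : Set (Ideal (𝓞 K) → ℂˣ)) := by
      intro Y hY Z hZ h
      rw [← ext_toP (hX Y hY).1, ← ext_toP (hX Z hZ).1, h]
    refine ⟨hXfin.toFinset.image toP, ?_, ?_⟩
    · rw [Finset.card_image_of_injOn (by simpa using hinjP), ← Set.ncard_eq_toFinset_card _ hXfin]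
      refine le_trans ?_ hXc
      apply Nat.le_of_dvd Module.finrank_pos
      apply orderOf_dvd_of_pow_eq_one
      apply Subtype.ext
      exact pow_card_eq_one L ψ.1 h3.le
    · intro f hf
      obtain ⟨Y, hY, rfl⟩ := Finset.mem_image.1 hf
      rw [hXfin.mem_toFinset] at hY
      obtain ⟨hN, hR, hF⟩ := hX Y hY
      refine ⟨?_, ?_, ?_⟩
      · rw [mem_RCK, ext_toP hN]
        exact hR
      · intro p hp
        apply hN
        rintro ⟨-, -, h⟩
        exact h ((res_dvd p M).1 hp)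
      · intro p hp hev
        rw [res_dvd] at hp
        have h5 := hF p.1 p.2.1 p.2.2 hp _ (isFrob_rest L p)
        rw [evK_apply, hrest] at hev
        rw [hev, orderOf_one, pow_one] at h5
        exact h5

end first

section second

variable {K : Type} [Field K] [NumberField K]

theorem idl_ne_top {n : ℕ} (hn : 1 < n) : idl K n ≠ ⊤ := by
  intro h
  rw [idl, Ideal.span_singleton_eq_top] at h
  have h1 : IsUnit (Algebra.norm ℤ (algebraMap ℤ (𝓞 K) (n : ℤ))) := by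
    apply IsUnit.map (Algebra.norm ℤ)
    simpa using h
  rw [Algebra.norm_algebraMap, isUnit_pow_iff Module.finrank_pos.ne', Int.isUnit_iff] at h1
  omega

theorem coprime_ne_zero {n : ℕ} (hn : 1 < n) {I : Ideal (𝓞 K)} (h : IsCoprime I (idl K n)) :
    I ≠ 0 := by
  rintro rfl
  rw [Ideal.isCoprime_iff_sup_eq, Ideal.zero_eq_bot, bot_sup_eq] at h
  exact idl_ne_top hn h

theorem evI_mul_ideal (Y : Ideal (𝓞 K) → ℂˣ) {I J : Ideal (𝓞 K)} (hI : I ≠ 0) (hJ : J ≠ 0) :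
    evI Y (I * J) = evI Y I * evI Y J := by
  unfold evI
  rw [normalizedFactors_mul hI hJ, Multiset.map_add, Multiset.prod_add]

theorem evI_prime (Y : Ideal (𝓞 K) → ℂˣ) (p : PK K) : evI Y p.1 = Y p.1 := by
  have hp : Irreducible p.1 := (Ideal.prime_of_isPrime p.2.2 p.2.1).irreducible
  unfold evI
  rw [normalizedFactors_irreducible hp, normalize_eq, Multiset.map_singleton,
    Multiset.prod_singleton]

theorem coprime_prime (p : PK K) {n : ℕ} (h : ¬ res K p ∣ n) : IsCoprime p.1 (idl K n) := by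
  have hmax : p.1.IsMaximal := p.2.1.isMaximal p.2.2
  rw [Ideal.isCoprime_iff_sup_eq]
  by_contra hne
  have h1 := hmax.eq_of_le hne le_sup_left
  apply h
  rw [res_dvd, h1]
  apply Ideal.mem_sup_right
  rw [idl]
  exact_mod_cast Ideal.mem_span_singleton_self _

open Classical in
theorem exists_nray (f : PK K → ℂˣ) (M : ℕ) (hM : 0 < M) (hf : f ∈ RCK K M) :
    ∃ ξ : Ideal (𝓞 K) →*₀ ℂ, H191.NRay ξ (2 * M) ∧
      ∀ p : PK K, ¬ res K p ∣ 2 * M → ξ p.1 = f p := by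
  have h2M : 1 < 2 * M := by omega
  let ξ : Ideal (𝓞 K) →*₀ ℂ :=
    { toFun := fun I => if IsCoprime I (idl K (2 * M : ℕ)) then ((evI (ext f) I : ℂˣ) : ℂ) else 0
      map_zero' := by
        rw [if_neg]
        intro h
        exact coprime_ne_zero h2M h rfl
      map_one' := by
        rw [if_pos isCoprime_one_left]
        unfold evI
        rw [normalizedFactors_one, Multiset.map_zero, Multiset.prod_zero, Units.val_one]
      map_mul' := by
        intro I J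
        by_cases hI : IsCoprime I (idl K (2 * M : ℕ))
        · by_cases hJ : IsCoprime J (idl K (2 * M : ℕ))
          · rw [if_pos (hI.mul_left hJ), if_pos hI, if_pos hJ,
              evI_mul_ideal _ (coprime_ne_zero h2M hI) (coprime_ne_zero h2M hJ), Units.val_mul]
          · rw [if_neg hJ, if_neg (fun h => hJ (IsCoprime.mul_left_iff.1 h).2), mul_zero]
        · rw [if_neg hI, if_neg (fun h => hI (IsCoprime.mul_left_iff.1 h).1), zero_mul] }
  have hξ : ∀ I, ξ I = if IsCoprime I (idl K (2 * M : ℕ)) then ((evI (ext f) I : ℂˣ) : ℂ) else 0 :=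
    fun I => rfl
  refine ⟨ξ, ⟨?_, ?_⟩, ?_⟩
  · intro I _
    rw [hξ]
    by_cases hI : IsCoprime I (idl K (2 * M : ℕ))
    · rw [if_pos hI]
      exact ⟨fun _ => hI, fun _ => Units.ne_zero _⟩
    · rw [if_neg hI]
      simpa using hI
  · intro α h0 h1 h2
    have hc : IsCoprime (Ideal.span {α}) (idl K (2 * M : ℕ)) := by
      rw [Ideal.isCoprime_iff_exists]
      refine ⟨α, Ideal.mem_span_singleton_self α, 1 - α, ?_, by ring⟩
      have := Ideal.neg_mem_iff _ |>.2 h1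
      simpa using this
    rw [hξ, if_pos hc, RC_mono (dvd_mul_left M 2) hf α h0 h1 h2]
    rfl
  · intro p hp
    rw [hξ, if_pos (coprime_prime p hp), evI_prime, ext_apply]

theorem rest_frob_of_split (L : IntermediateField K (Kb K)) [FiniteDimensional K L]
    [IsGalois K L] (hab : ∀ σ τ : L ≃ₐ[K] L, σ * τ = τ * σ) (p : PK K)
    (h : H191.Split K L p.1) : rest L (frob p) = 1 :=
  H374.isFrob_unique hab h.2.2.1 (isFrob_rest L p) h.2.2.2

theorem card_hom (B : Type) [CommGroup B] [Finite B] : Nat.card (B →* ℂˣ) = Nat.card B :=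
  CommGroup.card_monoidHom_of_hasEnoughRootsOfUnity B ℂ

/-- The field cut out by a finite group of characters. -/
theorem exists_field_group (B : Subgroup (Chars K)) [Finite B] :
    ∃ L : IntermediateField K (Kb K), FiniteDimensional K L ∧ IsGalois K L ∧
      (∀ g : GK K, g ∈ L.fixingSubgroup ↔ ∀ ψ ∈ B, (ψ : Chars K).1 g = 1) := by
  let Φ : GK K →* (B → ℂˣ) := MonoidHom.pi fun ψ => ψ.1.1
  have hΦ : ∀ g, g ∈ Φ.ker ↔ ∀ ψ ∈ B, (ψ : Chars K).1 g = 1 := by
    intro g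
    rw [MonoidHom.mem_ker, funext_iff]
    constructor
    · intro h ψ hψ
      exact h ⟨ψ, hψ⟩
    · intro h ψ
      exact h ψ.1 ψ.2
  have hopen : IsOpen (Φ.ker : Set (GK K)) := by
    have : (Φ.ker : Set (GK K)) = ⋂ ψ : B, ((ψ.1.1.ker : Subgroup (GK K)) : Set (GK K)) := by
      ext g
      rw [SetLike.mem_coe, hΦ, Set.mem_iInter]
      constructor
      · intro h ψ
        exact h ψ.1 ψ.2
      · intro h ψ hψ
        exact h ⟨ψ, hψ⟩
    rw [this]
    exact isOpen_iInter_of_finite fun ψ => isOpen_ker K ψ.1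
  obtain ⟨L, h1, h2, h3⟩ := exists_field Φ.ker hopen inferInstance
  refine ⟨L, h1, h2, fun g => ?_⟩
  rw [h3, hΦ]

theorem finrank_le (B : Subgroup (Chars K)) [Finite B] (L : IntermediateField K (Kb K))
    [FiniteDimensional K L] [IsGalois K L]
    (h : ∀ g : GK K, (∀ ψ ∈ B, (ψ : Chars K).1 g = 1) → g ∈ L.fixingSubgroup) :
    Module.finrank K L ≤ Nat.card B := by
  rw [← card_gal, ← card_hom B]
  have : Finite (B →* ℂˣ) := Nat.finite_of_card_ne_zero (by rw [card_hom]; exact Nat.card_pos.ne')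
  choose s hs using rest_surj L
  let F : (L ≃ₐ[K] L) → (B →* ℂˣ) := fun a =>
    { toFun := fun ψ => ψ.1.1 (s a)
      map_one' := rfl
      map_mul' := fun _ _ => rfl }
  apply Nat.card_le_card_of_injective F
  intro a b hab
  have h1 : s a * (s b)⁻¹ ∈ L.fixingSubgroup := by
    apply h
    intro ψ hψ
    have := DFunLike.congr_fun hab ⟨ψ, hψ⟩
    have h2 : ψ.1 (s a) = ψ.1 (s b) := this
    rw [map_mul, map_inv, h2, mul_inv_cancel]
  rw [← rest_ker, MonoidHom.mem_ker, map_mul, map_inv, mul_inv_eq_one, hs, hs] at h1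
  exact h1

theorem second (hS : H191.Second_statement) (h2 : Module.finrank ℚ K ≤ 2) (B : Subgroup (Chars K))
    (hB : Finite B) (s : Finset (PK K → ℂˣ)) (hs1 : ∀ f ∈ s, ∃ M : ℕ, 0 < M ∧ f ∈ RCK K M)
    (hs2 : ∀ f ∈ s, ∀ᶠ p in Filter.cofinite, (∀ ψ ∈ B, evK K ψ p = 1) → f p = 1)
    (hs3 : ∀ f ∈ s, ∀ g ∈ s, (∀ᶠ p in Filter.cofinite, f p = g p) → f = g) :
    s.card ≤ Nat.card B := by
  classical
  obtain ⟨L, h3, h4, h5⟩ := exists_field_group B
  refine le_trans ?_ (finrank_le B L fun g hg => (h5 g).2 hg)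
  have hab := comm_of_inj L (fun ψ : B => ψ.1.1) (fun g hg => (h5 g).2 fun ψ hψ => hg ⟨ψ, hψ⟩)
  have h6 : ∀ f : s, ∃ M : ℕ, 0 < M ∧ ∃ ξ : Ideal (𝓞 K) →*₀ ℂ, H191.NRay ξ (2 * M) ∧
      ∀ p : PK K, ¬ res K p ∣ 2 * M → ξ p.1 = f.1 p := by
    intro f
    obtain ⟨M, hM, hf⟩ := hs1 f.1 f.2
    obtain ⟨ξ, hξ, hξ'⟩ := exists_nray f.1 M hM hf
    exact ⟨M, hM, ξ, hξ, hξ'⟩
  choose M hM ξ hξ hξ' using h6
  have hfin : ∀ M : ℕ, 0 < M → ∀ᶠ p : PK K in Filter.cofinite, ¬ res K p ∣ 2 * M := by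
    intro M hM
    rw [Filter.eventually_cofinite]
    simpa using res_fin (2 * M) (by omega)
  have := hS K L h4 h2 s (fun f => 2 * M f) ξ (fun f => by have := hM f; omega) hξ ?_ ?_
  · rwa [Fintype.card_coe] at this
  · intro f g hfg
    by_contra hcon
    rw [Set.not_infinite] at hcon
    apply hfg
    apply Subtype.ext
    apply hs3 f.1 f.2 g.1 g.2
    have h7 : {p : PK K | ξ f p.1 ≠ ξ g p.1}.Finite := by
      apply Set.Finite.of_injOn (f := fun p : PK K => p.1) (t := _) ?_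
        (fun a _ b _ h => Subtype.ext h) hcon
      intro p hp
      exact ⟨p.2.1, p.2.2, hp⟩
    have h8 : ∀ᶠ p : PK K in Filter.cofinite, ξ f p.1 = ξ g p.1 := by
      rw [Filter.eventually_cofinite]
      exact h7
    filter_upwards [h8, hfin _ (hM f), hfin _ (hM g)] with p hp hp1 hp2
    rw [hξ' f p hp1, hξ' g p hp2] at hp
    exact Units.ext hp
  · intro f
    have h7 : ∀ᶠ p : PK K in Filter.cofinite, ¬ (H191.Split K L p.1 ∧ ξ f p.1 ≠ 1) := by
      filter_upwards [hs2 f.1 f.2, hfin _ (hM f)] with p hp hp1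
      rintro ⟨hsp, hne⟩
      apply hne
      rw [hξ' f p hp1, hp]
      · rfl
      · have h8 := rest_frob_of_split L hab p hsp
        have h9 : frob p ∈ L.fixingSubgroup := by
          rw [← rest_ker]
          exact h8
        exact (h5 _).1 h9
    rw [Filter.eventually_cofinite] at h7
    have h8 := h7.image (fun p : PK K => p.1)
    refine h8.subset ?_
    rintro 𝔭 ⟨hsp, hne⟩
    exact ⟨⟨𝔭, hsp.1, hsp.2.1⟩, fun h => h ⟨hsp, hne⟩, rfl⟩

theorem eventually_unram (hU : ∀ L : IntermediateField K (Kb K), ∀ _ : FiniteDimensional K L,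
    ∀ _ : IsGalois K L, {𝔭 : Ideal (𝓞 K) | 𝔭.IsPrime ∧ 𝔭 ≠ ⊥ ∧ ¬ Unram K L 𝔭}.Finite)
    (L : IntermediateField K (Kb K)) [h1 : FiniteDimensional K L] [h2 : IsGalois K L] :
    ∀ᶠ p : PK K in Filter.cofinite, Unram K L p.1 := by
  rw [Filter.eventually_cofinite]
  apply Set.Finite.of_injOn (f := fun p : PK K => p.1) (t := _) ?_
    (fun a _ b _ h => Subtype.ext h) (hU L h1 h2)
  intro p hp
  exact ⟨p.2.1, p.2.2, hp⟩

theorem split (hBa : H191.Bauer_statement)
    (hU : ∀ L : IntermediateField K (Kb K), ∀ _ : FiniteDimensional K L,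
    ∀ _ : IsGalois K L, {𝔭 : Ideal (𝓞 K) | 𝔭.IsPrime ∧ 𝔭 ≠ ⊥ ∧ ¬ Unram K L 𝔭}.Finite)
    (ψ φ : Chars K)
    (h : ∀ᶠ p in Filter.cofinite, evK K ψ p = 1 → evK K φ p = 1) : φ ∈ Subgroup.zpowers ψ := by
  obtain ⟨L, hL1, hL2, hL3⟩ := exists_field ψ.1.ker (isOpen_ker K ψ) inferInstance
  obtain ⟨E, hE1, hE2, hE3⟩ := exists_field (ψ.1.ker ⊓ φ.1.ker)
    ((isOpen_ker K ψ).inter (isOpen_ker K φ)) inferInstance
  have habL := comm_of_inj L (fun _ : Unit => ψ.1) (fun g hg => by rw [hL3]; exact hg ())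
  have hsplit : {𝔭 : Ideal (𝓞 K) | H191.Split K L 𝔭 ∧ ¬ H191.Split K E 𝔭}.Finite := by
    have h7 : ∀ᶠ p : PK K in Filter.cofinite, ¬ (H191.Split K L p.1 ∧ ¬ H191.Split K E p.1) := by
      filter_upwards [h, eventually_unram hU E] with p hp hu
      rintro ⟨hsp, hne⟩
      apply hne
      have h8 := rest_frob_of_split L habL p hsp
      have h9 : frob p ∈ L.fixingSubgroup := by
        rw [← rest_ker]
        exact h8
      rw [hL3] at h9
      have h10 : φ.1 (frob p) = 1 := hp h9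
      have h11 : frob p ∈ (rest E).ker := by
        rw [rest_ker, hE3]
        exact ⟨h9, h10⟩
      refine ⟨p.2.1, p.2.2, hu, ?_⟩
      have h12 := isFrob_rest E p
      rw [MonoidHom.mem_ker.1 h11] at h12
      exact h12
    rw [Filter.eventually_cofinite] at h7
    refine (h7.image (fun p : PK K => p.1)).subset ?_
    rintro 𝔭 ⟨hsp, hne⟩
    exact ⟨⟨𝔭, hsp.1, hsp.2.1⟩, fun h => h ⟨hsp, hne⟩, rfl⟩
  have hrank := hBa K L E hL2 hE2 hsplit
  have hLE : L ≤ E := by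
    rw [← InfiniteGalois.fixedField_fixingSubgroup L, ← InfiniteGalois.fixedField_fixingSubgroup E,
      hL3, hE3]
    exact IntermediateField.fixedField_antitone inf_le_left
  have hEL : L = E := IntermediateField.eq_of_le_of_finrank_le hLE hrank
  have hker : ψ.1.ker ≤ φ.1.ker := by
    rw [← hL3, hEL, hE3]
    exact inf_le_right
  -- both characters factor through the cyclic group of `L`
  obtain ⟨σ, hσ⟩ := exists_gen L ψ.1 hL3
  obtain ⟨g0, rfl⟩ := rest_surj L σ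
  have hdec : ∀ g, ∃ i : ℤ, g * (g0 ^ i)⁻¹ ∈ ψ.1.ker := by
    intro g
    obtain ⟨i, hi⟩ := Subgroup.mem_zpowers_iff.1 (hσ (rest L g))
    refine ⟨i, ?_⟩
    rw [← hL3, ← rest_ker, MonoidHom.mem_ker, map_mul, map_inv, map_zpow, hi, mul_inv_cancel]
  have hval : ∀ χ : GK K →* ℂˣ, ψ.1.ker ≤ χ.ker → ∀ g, ∀ i : ℤ, g * (g0 ^ i)⁻¹ ∈ ψ.1.ker →
      χ g = χ g0 ^ i := by
    intro χ hχ g i hi
    have := hχ hi
    rw [MonoidHom.mem_ker, map_mul, map_inv, map_zpow, mul_inv_eq_one] at this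
    exact this
  set n := orderOf (ψ.1 g0) with hn
  have hn0 : 0 < n := by
    have h13 : (ψ.1 g0) ^ (Module.finrank K L) = 1 := by
      rw [← MonoidHom.pow_apply, pow_card_eq_one L ψ.1 hL3.le]
      rfl
    exact orderOf_pos_iff.2 (isOfFinOrder_iff_pow_eq_one.2 ⟨_, Module.finrank_pos, h13⟩)
  have hφn : φ.1 g0 ^ n = 1 := by
    have h14 : g0 ^ n ∈ ψ.1.ker := by
      rw [MonoidHom.mem_ker, map_pow, hn, pow_orderOf_eq_one]
    have := hker h14
    rwa [MonoidHom.mem_ker, map_pow] at this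
  obtain ⟨k, hk⟩ : ∃ k : ℤ, φ.1 g0 = ψ.1 g0 ^ k := by
    obtain ⟨d, hd⟩ := RecSys.exists_zpow_eq hφn (dvd_refl n) hn0.ne'
    exact ⟨-d, by rw [zpow_neg]; exact eq_inv_of_mul_eq_one_left hd⟩
  rw [Subgroup.mem_zpowers_iff]
  refine ⟨k, ?_⟩
  apply Subtype.ext
  apply MonoidHom.ext
  intro g
  obtain ⟨i, hi⟩ := hdec g
  have h15 : ((ψ ^ k : Chars K) : GK K →* ℂˣ) g = ψ.1 g ^ k := by
    rw [Subgroup.coe_zpow]
    exact MonoidHom.zpow_apply _ _ _
  rw [h15, hval ψ.1 le_rfl g i hi, hval φ.1 hker g i hi, hk, ← zpow_mul, ← zpow_mul, mul_comm]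

end second

end

end Vale.Agent.P022.H867
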