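import Vale.Agent.P022.H867.Inst2
import Vale.Agent.P022.H374.N1
import Vale.Agent.P022.H374.N2
import Vale.Agent.P022.H374.Ray

/-! # Cyclotomic twists -/

namespace Vale.Agent.P022.H867

open NumberField Pointwise UniqueFactorizationMonoid
open Vale.Agent.P022.CFT (evI IsRC Nrm)

noncomputable section

section cyc

variable {K : Type} [Field K] [NumberField K]

/-- Roots of unity of order prime to `Q` are distinct modulo `Q`. -/
theorem root_eq {R : Type} [CommRing R] [IsDomain R] {Q : Ideal R} {n : ℕ}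
    (hn : (n : R) ∉ Q) {x y : R} (hx : x ^ n = 1) (hy : y ^ n = 1) (h : x - y ∈ Q) : x = y := by
  rcases Nat.eq_zero_or_pos n with rfl | hpos
  · exact absurd (by simp) hn
  obtain ⟨m, rfl⟩ : ∃ m, n = m + 1 := ⟨n - 1, by omega⟩
  set u : R := x * y ^ m with hu
  have hyu : y ^ m * y = 1 := by rw [← pow_succ]; exact hy
  have h1 : u ^ (m + 1) = 1 := by
    rw [hu, mul_pow, hx, one_mul, ← pow_mul, mul_comm, pow_mul, hy, one_pow]
  have h2 : u - 1 ∈ Q := by
    have : u - 1 = y ^ m * (x - y) := by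
      rw [hu, mul_sub, hyu]; ring
    rw [this]
    exact Q.mul_mem_left _ h
  have h3 : u = 1 := by
    by_contra hne
    have h4 : (∑ i ∈ Finset.range (m + 1), u ^ i) * (u - 1) = 0 := by
      rw [geom_sum_mul, h1, sub_self]
    have h5 : ∑ i ∈ Finset.range (m + 1), u ^ i = 0 := by
      rcases mul_eq_zero.1 h4 with h | h
      · exact h
      · exact absurd (sub_eq_zero.1 h) hne
    have h6 : ∑ i ∈ Finset.range (m + 1), (u ^ i - 1) ∈ Q := by
      apply Q.sum_mem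
      intro i _
      have : u - 1 ∣ u ^ i - 1 := by simpa using sub_dvd_pow_sub_pow u 1 i
      obtain ⟨c, hc⟩ := this
      rw [hc]
      exact Q.mul_mem_right _ h2
    rw [Finset.sum_sub_distrib, h5, Finset.sum_const, Finset.card_range, zero_sub, nsmul_eq_mul,
      mul_one] at h6
    exact hn (by simpa using Q.neg_mem h6)
  calc x = x * (y ^ m * y) := by rw [hyu, mul_one]
    _ = u * y := by rw [hu]; ring
    _ = y := by rw [h3, one_mul]

theorem exists_zeta (q : ℕ) (hq : q.Prime) : ∃ ζ : 𝓞 (Kb K), IsPrimitiveRoot (ζ : Kb K) q := by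
  have : NeZero ((q : ℕ) : Kb K) := ⟨by exact_mod_cast hq.ne_zero⟩
  obtain ⟨z, hz⟩ := HasEnoughRootsOfUnity.exists_primitiveRoot (Kb K) q
  have hint : IsIntegral ℤ z := hz.isIntegral hq.pos
  exact ⟨⟨z, hint⟩, hz⟩

/-- A faithful character of `(ZMod q)ˣ`. -/
theorem exists_faithful (q : ℕ) (hq : q.Prime) :
    ∃ w0 : (ZMod q)ˣ →* ℂˣ, Function.Injective w0 := by
  have : Fact q.Prime := ⟨hq⟩
  obtain ⟨g, hg⟩ := IsCyclic.exists_generator (α := (ZMod q)ˣ)
  have h0 : orderOf g ≠ 0 := (orderOf_pos g).ne'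
  have hprim := Complex.isPrimitiveRoot_exp (orderOf g) h0
  let z : ℂˣ := (hprim.isUnit h0).unit
  have hz : orderOf z = orderOf g := by
    have h1 : IsPrimitiveRoot z (orderOf g) := hprim.isUnit_unit h0
    exact h1.eq_orderOf.symm
  let w0 := monoidHomOfForallMemZpowers hg hz.dvd
  have hw : w0 g = z := monoidHomOfForallMemZpowers_apply_gen hg hz.dvd
  refine ⟨w0, ?_⟩
  rw [injective_iff_map_eq_one]
  intro a ha
  obtain ⟨k, rfl⟩ := Subgroup.mem_zpowers_iff.1 (hg a)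
  rw [map_zpow, hw] at ha
  rw [← orderOf_dvd_iff_zpow_eq_one] at ha ⊢
  rwa [← hz]

theorem evI_norm {q : ℕ} (w0 : (ZMod q)ˣ →* ℂˣ) (Y : Ideal (𝓞 K) → ℂˣ) (I : Ideal (𝓞 K))
    (hI : I ≠ 0) : ∀ v : (ZMod q)ˣ, (v : ZMod q) = ((Ideal.absNorm I : ℕ) : ZMod q) →
    (∀ 𝔭 : Ideal (𝓞 K), 𝔭.IsPrime → 𝔭 ≠ ⊥ → I ≤ 𝔭 →
      ∀ u : (ZMod q)ˣ, (u : ZMod q) = ((Ideal.absNorm 𝔭 : ℕ) : ZMod q) → Y 𝔭 = w0 u) →
    evI Y I = w0 v := by
  induction I using UniqueFactorizationMonoid.induction_on_prime with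
  | h₁ => exact absurd rfl hI
  | h₂ I hu =>
    intro v hv _
    have h1 : I = 1 := by
      have := Ideal.isUnit_iff.1 hu
      rw [this, Ideal.one_eq_top]
    subst h1
    rw [map_one, Nat.cast_one] at hv
    have hv1 : v = 1 := Units.ext hv
    unfold evI
    rw [normalizedFactors_one, Multiset.map_zero, Multiset.prod_zero, hv1, map_one]
  | h₃ J P hJ hP ih =>
    intro v hv hY
    have hPp : P.IsPrime := Ideal.isPrime_of_prime hP
    have hP0 : P ≠ ⊥ := hP.ne_zero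
    rw [map_mul, Nat.cast_mul] at hv
    have hu1 : IsUnit ((Ideal.absNorm P : ℕ) : ZMod q) :=
      isUnit_of_mul_isUnit_left (hv ▸ v.isUnit)
    have hu2 : IsUnit ((Ideal.absNorm J : ℕ) : ZMod q) :=
      isUnit_of_mul_isUnit_right (hv ▸ v.isUnit)
    have hv' : v = hu1.unit * hu2.unit := Units.ext (by
      rw [Units.val_mul, IsUnit.unit_spec, IsUnit.unit_spec, hv])
    rw [evI_mul_ideal Y hP0 hJ, evI_prime Y ⟨P, hPp, hP0⟩, hv', map_mul]
    rw [hY P hPp hP0 Ideal.mul_le_left hu1.unit hu1.unit_spec]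
    rw [ih hJ hu2.unit hu2.unit_spec
      (fun 𝔭 h1 h2 h3 => hY 𝔭 h1 h2 (Ideal.mul_le_right.trans h3))]

end cyc

section twist

variable {K : Type} [Field K] [NumberField K]

theorem twist (h2 : Module.finrank ℚ K ≤ 2) (r e : ℕ) (hr : r.Prime) (S : Finset ℕ) (p : PK K) :
    ∃ (q : ℕ) (w : Chars K), q.Prime ∧ q ∉ S ∧ q ≠ res K p ∧ IsOfFinOrder w ∧ ramK w.1 ⊆ {q} ∧
      evK K w ∈ RCK K q ∧ r ^ e ∣ orderOf (evK K w p) ∧
      ∀ (k : ℤ) (M : ℕ), 0 < M → ¬ q ∣ M →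
        (∃ f ∈ RCK K M, ∀ᶠ p in Filter.cofinite, f p = evK K (w ^ k) p) → w ^ k = 1 := by
  classical
  obtain ⟨D, hD, hN2⟩ := H374.N2 h2
  have hNp : 1 < Ideal.absNorm p.1 := by
    have h0 : Ideal.absNorm p.1 ≠ 0 := fun h => p.2.2 (Ideal.absNorm_eq_zero_iff.1 h)
    have h1 : Ideal.absNorm p.1 ≠ 1 := fun h => p.2.1.ne_top (Ideal.absNorm_eq_one_iff.1 h)
    omega
  obtain ⟨q, hq, hqS, hqp, hord⟩ := H374.N1 hr e (S ∪ D.primeFactors ∪ {res K p}) hNp
  rw [Finset.mem_union, Finset.mem_union, not_or, not_or] at hqS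
  obtain ⟨⟨hqS, hqD⟩, hqr⟩ := hqS
  have hqD' : ¬ q ∣ D := fun h => hqD (Nat.mem_primeFactors.2 ⟨hq, h, hD.ne'⟩)
  have hqr' : q ≠ res K p := by simpa using hqr
  have hqf : Fact q.Prime := ⟨hq⟩
  obtain ⟨ζ, hζ⟩ := exists_zeta (K := K) q hq
  obtain ⟨w0, hw0⟩ := exists_faithful q hq
  have hζ1 : ζ ^ q = 1 := by
    apply RingOfIntegers.ext
    have := hζ.pow_eq_one
    simpa using this
  -- the cyclotomic character
  let c : GK K →* (ZMod q)ˣ := hζ.autToPow K
  have hc : ∀ g : GK K, ∀ m : ℕ, g (ζ : Kb K) = (ζ : Kb K) ^ m → ((c g : (ZMod q)ˣ) : ZMod q) = m := by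
    intro g m hm
    have h1 := hζ.autToPow_spec K g
    rw [hm] at h1
    have h2 : (ζ : Kb K) ^ m = (ζ : Kb K) ^ (m % q) := by
      conv_lhs => rw [← Nat.mod_add_div m q, pow_add, pow_mul, hζ.pow_eq_one, one_pow, mul_one]
    have h3 := hζ.pow_inj (ZMod.val_lt _) (Nat.mod_lt _ hq.pos) (h1.trans h2)
    have h4 := congrArg (fun n : ℕ => (n : ZMod q)) h3
    simp only [ZMod.natCast_mod, ZMod.natCast_zmod_val] at h4
    exact h4
  let χ : GK K →* ℂˣ := w0.comp c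
  have hχ : IsOpen ((χ.ker : Subgroup (GK K)) : Set (GK K)) := by
    let F : IntermediateField K (Kb K) := IntermediateField.adjoin K {(ζ : Kb K)}
    have hF : FiniteDimensional K F :=
      IntermediateField.adjoin.finiteDimensional (Algebra.IsIntegral.isIntegral _)
    have hle : F.fixingSubgroup ≤ χ.ker := by
      intro g hg
      have h1 : g (ζ : Kb K) = (ζ : Kb K) ^ 1 := by
        rw [pow_one]
        exact (IntermediateField.mem_fixingSubgroup_iff F g).1 hg _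
          (IntermediateField.mem_adjoin_simple_self K _)
      have h3 : c g = 1 := Units.ext (by rw [hc g 1 h1, Nat.cast_one, Units.val_one])
      rw [MonoidHom.mem_ker, MonoidHom.comp_apply, h3, map_one]
    exact Subgroup.isOpen_mono hle (IntermediateField.fixingSubgroup_isOpen F)
  let w : Chars K := ⟨χ, hχ⟩
  -- values at Frobenius elements
  have hval : ∀ p' : PK K, (q : 𝓞 K) ∉ p'.1 → ∀ u : (ZMod q)ˣ,
      (u : ZMod q) = ((Ideal.absNorm p'.1 : ℕ) : ZMod q) → evK K w p' = w0 u := by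
    intro p' hqp' u hu
    have hqQ : ((q : ℕ) : 𝓞 (Kb K)) ∉ pab p' := by
      intro h
      apply hqp'
      rw [← pab_comap p', Ideal.mem_comap, map_natCast]
      exact h
    have h1 : frob p' • ζ = ζ ^ (Ideal.absNorm p'.1) := by
      apply root_eq hqQ _ _ (frob_spec p' ζ)
      · rw [← smul_pow', hζ1, smul_one]
      · rw [← pow_mul, mul_comm, pow_mul, hζ1, one_pow]
    have h3 : (frob p') (ζ : Kb K) = (ζ : Kb K) ^ (Ideal.absNorm p'.1) := by
      have := congrArg (fun x : 𝓞 (Kb K) => (x : Kb K)) h1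
      exact this.trans (map_pow _ _ _)
    have h4 : c (frob p') = u := Units.ext (by rw [hc _ _ h3, hu])
    show w0 (c (frob p')) = w0 u
    rw [h4]
  have hext : ∀ 𝔭 : Ideal (𝓞 K), 𝔭.IsPrime → 𝔭 ≠ ⊥ → (q : 𝓞 K) ∉ 𝔭 → ∀ u : (ZMod q)ˣ,
      (u : ZMod q) = ((Ideal.absNorm 𝔭 : ℕ) : ZMod q) → ext (evK K w) 𝔭 = w0 u := by
    intro 𝔭 h3 h4 h5 u hu
    have := ext_apply (evK K w) ⟨𝔭, h3, h4⟩
    rw [this]
    exact hval ⟨𝔭, h3, h4⟩ h5 u hu
  have hunit : ∀ p' : PK K, (q : 𝓞 K) ∉ p'.1 → IsUnit ((Ideal.absNorm p'.1 : ℕ) : ZMod q) := by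
    intro p' hp'
    rw [isUnit_iff_ne_zero, Ne, ZMod.natCast_eq_zero_iff]
    intro h
    apply hp'
    have h3 : ((Ideal.absNorm p'.1 : ℕ) : 𝓞 K) ∈ p'.1 := Ideal.absNorm_mem p'.1
    obtain ⟨m, k, hm, hk⟩ : ∃ m k : ℕ, m.Prime ∧ Ideal.absNorm p'.1 = m ^ k := by
      have hmax := p'.2.1.isMaximal p'.2.2
      let _ : Field (𝓞 K ⧸ p'.1) := Ideal.Quotient.field p'.1
      have hfin : Finite (𝓞 K ⧸ p'.1) := Ideal.finiteQuotientOfFreeOfNeBot p'.1 p'.2.2
      have hft : Fintype (𝓞 K ⧸ p'.1) := Fintype.ofFinite _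
      obtain ⟨l, hl⟩ := CharP.exists (𝓞 K ⧸ p'.1)
      obtain ⟨n, hlp, hn⟩ := FiniteField.card (𝓞 K ⧸ p'.1) l
      exact ⟨l, n, hlp, by
        rw [Ideal.absNorm_apply, Submodule.cardQuot_apply, Nat.card_eq_fintype_card, hn]⟩
    rw [hk] at h
    have hqm : q = m := (Nat.prime_dvd_prime_iff_eq hq hm).1 (hq.dvd_of_dvd_pow h)
    rw [hk, ← hqm] at h3
    push_cast at h3
    exact p'.2.1.mem_of_pow_mem _ h3
  refine ⟨q, w, hq, hqS, hqr', isOfFinOrder w, ?_, ?_, ?_, ?_⟩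
  · rintro l ⟨hl, Q, hQ, hlQ, g, hg, hne⟩
    by_contra hlq
    have hlq' : l ≠ q := hlq
    have hqQ : ((q : ℕ) : 𝓞 (Kb K)) ∉ Q := by
      intro h
      have hco : IsCoprime (l : ℤ) (q : ℤ) :=
        Nat.isCoprime_iff_coprime.2 ((Nat.coprime_primes hl hq).2 hlq')
      obtain ⟨a, b, hab⟩ := hco
      apply hQ.ne_top
      rw [Ideal.eq_top_iff_one]
      have : (1 : 𝓞 (Kb K)) = (a : 𝓞 (Kb K)) * (l : 𝓞 (Kb K)) + (b : 𝓞 (Kb K)) * (q : 𝓞 (Kb K)) := by
        exact_mod_cast (congrArg (fun z : ℤ => (z : 𝓞 (Kb K))) hab).symm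
      rw [this]
      exact Ideal.add_mem _ (Ideal.mul_mem_left _ _ hlQ) (Ideal.mul_mem_left _ _ h)
    apply hne
    have h1 : g • ζ = ζ := by
      apply root_eq hqQ _ hζ1 (hg ζ)
      rw [← smul_pow', hζ1, smul_one]
    have h3 : g (ζ : Kb K) = (ζ : Kb K) ^ 1 := by
      rw [pow_one]
      exact congrArg (fun x : 𝓞 (Kb K) => (x : Kb K)) h1
    have h4 : c g = 1 := Units.ext (by rw [hc g 1 h3, Nat.cast_one, Units.val_one])
    show w0 (c g) = 1
    rw [h4, map_one]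
  · rw [mem_RCK]
    exact H374.N6 w0 _ hext
  · have hqp' : (q : 𝓞 K) ∉ p.1 := by
      intro h
      apply hqr'
      have := (res_dvd p q).2 h
      exact ((Nat.prime_dvd_prime_iff_eq (res_prime p) hq).1 this).symm
    obtain ⟨u, hu⟩ := hunit p hqp'
    rw [hval p hqp' u hu, orderOf_injective w0 hw0, ← orderOf_units, hu]
    exact hord
  · rintro k M hM hqM ⟨f, hf, hfe⟩
    rw [Filter.eventually_cofinite] at hfe
    set T : Finset (PK K) := hfe.toFinset.filter (fun p' => res K p' ≠ q) with hT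
    set t : ℕ := ∏ p' ∈ T, res K p' with ht
    have ht0 : 0 < t := Finset.prod_pos fun p' _ => (res_prime p').pos
    have hqt : ¬ q ∣ t := by
      intro h
      obtain ⟨p', hp', h'⟩ := (hq.prime.dvd_finsetProd_iff _).1 h
      have := (Finset.mem_filter.1 hp').2
      exact this ((Nat.prime_dvd_prime_iff_eq hq (res_prime p')).1 h').symm
    have hMt : 0 < M * t := Nat.mul_pos hM ht0
    have hqMt : ¬ q ∣ M * t := by
      intro h
      rcases (Nat.Prime.dvd_mul hq).1 h with h | h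
      · exact hqM h
      · exact hqt h
    -- it suffices to treat the character of `(ZMod q)ˣ`
    have hmain : ∀ v : (ZMod q)ˣ, w0 v ^ k = 1 := by
      intro v
      have hvq : ¬ q ∣ (v : ZMod q).val := by
        intro h
        rw [← ZMod.natCast_eq_zero_iff, ZMod.natCast_val, ZMod.cast_id] at h
        exact v.ne_zero h
      obtain ⟨α, hα0, hα1, hα2, hα3⟩ := hN2 q hq hqD' (M * t) hMt hqMt (v : ZMod q).val hvq
      have hα3' : ((v : (ZMod q)ˣ) : ZMod q) = ((Ideal.absNorm (Ideal.span {α}) : ℕ) : ZMod q) := by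
        rw [hα3, ZMod.natCast_val, ZMod.cast_id]
      have hI0 : (Ideal.span {α} : Ideal (𝓞 K)) ≠ 0 := by
        rw [Ideal.zero_eq_bot, Ne, Ideal.span_singleton_eq_bot]
        exact hα0
      have hαM : α - 1 ∈ idl K M := by
        have hle : idl K (M * t : ℕ) ≤ idl K M := by
          rw [idl, idl, Ideal.span_singleton_le_span_singleton]
          push_cast
          exact dvd_mul_right _ _
        exact hle (by exact_mod_cast hα1)
      have h5 := hf α hα0 hαM hα2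
      have hqnot : ∀ 𝔭 : Ideal (𝓞 K), 𝔭.IsPrime → 𝔭 ≠ ⊥ → Ideal.span {α} ≤ 𝔭 → (q : 𝓞 K) ∉ 𝔭 := by
        intro 𝔭 h6 h7 h8 h9
        have h10 : Ideal.absNorm 𝔭 ∣ Ideal.absNorm (Ideal.span {α}) :=
          Ideal.absNorm_dvd_absNorm_of_le h8
        have h11 : IsUnit ((Ideal.absNorm 𝔭 : ℕ) : ZMod q) := by
          obtain ⟨d, hd⟩ := h10
          rw [hd, Nat.cast_mul] at hα3'
          exact isUnit_of_mul_isUnit_left (hα3' ▸ v.isUnit)
        have h12 : ((Ideal.absNorm 𝔭 : ℕ) : ZMod q) ≠ 0 := h11.ne_zero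
        apply h12
        rw [ZMod.natCast_eq_zero_iff]
        have h13 : Ideal.absNorm 𝔭 ≠ 1 := fun h => h6.ne_top (Ideal.absNorm_eq_one_iff.1 h)
        -- the norm is a power of the residue characteristic
        have h14 : res K ⟨𝔭, h6, h7⟩ ∣ q := (res_dvd ⟨𝔭, h6, h7⟩ q).2 h9
        have h15 : res K ⟨𝔭, h6, h7⟩ = q :=
          (Nat.prime_dvd_prime_iff_eq (res_prime _) hq).1 h14
        rw [← h15, res_dvd]
        exact Ideal.absNorm_mem 𝔭
      have h6 : evI (ext (evK K (w ^ k))) (Ideal.span {α}) = 1 := by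
        rw [← h5]
        apply evI_congr
        intro 𝔭 h7 h8 h9
        have h10 := ext_apply (evK K (w ^ k)) ⟨𝔭, h7, h8⟩
        have h11 := ext_apply f ⟨𝔭, h7, h8⟩
        rw [h10, h11]
        by_contra hne
        have h12 : (⟨𝔭, h7, h8⟩ : PK K) ∈ T := by
          rw [hT, Finset.mem_filter, hfe.mem_toFinset]
          refine ⟨fun h => hne h.symm, fun h => ?_⟩
          apply hqnot 𝔭 h7 h8 h9
          exact (res_dvd ⟨𝔭, h7, h8⟩ q).1 h.dvd
        have h13 : res K ⟨𝔭, h7, h8⟩ ∣ M * t :=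
          Dvd.dvd.mul_left (Finset.dvd_prod_of_mem _ h12) _
        have h14 := not_mem_of_sub_one_mem (M := M * t) (by exact_mod_cast hα1) h7 h9
        exact h14 ((res_dvd ⟨𝔭, h7, h8⟩ _).1 h13)
      rw [evI_norm (w0 ^ k) _ _ hI0 v hα3'] at h6
      · exact h6
      · intro 𝔭 h7 h8 h9 u hu
        have h10 := ext_apply (evK K (w ^ k)) ⟨𝔭, h7, h8⟩
        rw [h10, map_zpow, Pi.pow_apply, hval ⟨𝔭, h7, h8⟩ (hqnot 𝔭 h7 h8 h9) u hu]
        rfl
    apply Subtype.ext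
    apply MonoidHom.ext
    intro g
    have h15 : ((w ^ k : Chars K) : GK K →* ℂˣ) g = w.1 g ^ k := by
      rw [Subgroup.coe_zpow]
      exact MonoidHom.zpow_apply _ _ _
    rw [h15]
    exact hmain (c g)

end twist

end

end Vale.Agent.P022.H867
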